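import Vale.Agent.P205.Assembly.Base.Radial

/-!
Blending two maps of a disc near a common first order contact: if `A` and `B` lie in the unit
sphere with the same isometric 1-jet at `0`, and `W` is close to `A`, then `W` continued by `B` is an
immersion, nearly isometric, with nonvanishing second fundamental form on a small disc.
-/

noncomputable section

open Set Real Filter Metric
open scoped ContDiff Topology

namespace Vale.Agent.P205.Base

open Wave (V4 ip D gram2 lift2)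

/-! ### Elementary estimates -/

theorem abs_ip_le_norm (x y : V4) : |ip x y| ≤ 4 * (‖x‖ * ‖y‖) := by
  refine (Finset.abs_sum_le_sum_abs _ _).trans ?_
  refine (Finset.sum_le_sum fun i _ => (show |x i * y i| ≤ ‖x‖ * ‖y‖ from ?_)).trans (le_of_eq ?_)
  · rw [abs_mul]
    exact mul_le_mul (norm_le_pi_norm x i) (norm_le_pi_norm y i) (abs_nonneg _) (norm_nonneg _)
  · simp

theorem norm_le_len (x : V4) : ‖x‖ ≤ Legal.len x := by
  refine (pi_norm_le_iff_of_nonneg (Legal.len_nonneg x)).2 fun i => ?_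
  rw [Real.norm_eq_abs]
  refine Real.abs_le_sqrt ?_
  rw [sq]
  exact Finset.single_le_sum (f := fun j => x j * x j) (fun j _ => mul_self_nonneg _)
    (Finset.mem_univ i)

/-- The scalar product with a fixed vector. -/
def ipL (n : V4) : V4 →L[ℝ] ℝ :=
  LinearMap.toContinuousLinearMap
    { toFun := fun x => ip n x
      map_add' := fun x y => by simp
      map_smul' := fun r x => by simp }

@[simp] theorem ipL_apply (n x : V4) : ipL n x = ip n x := rfl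

theorem two_le_top : (2 : WithTop ℕ∞) ≤ ∞ := WithTop.coe_le_coe.2 le_top

variable {F : Type} [NormedAddCommGroup F] [NormedSpace ℝ F]

theorem DD_eq {f : R2 → F} {u : R2} (hf : ContDiffAt ℝ 2 f u) (a b : R2) :
    D a (D b f) u = fderiv ℝ (fderiv ℝ f) u a b := by
  have h : DifferentiableAt ℝ (fderiv ℝ f) u :=
    (hf.fderiv_right (m := 1) (by norm_num)).differentiableAt (by norm_num)
  have h' : HasFDerivAt (fun y => fderiv ℝ f y b) _ u :=
    h.hasFDerivAt.clm_apply (hasFDerivAt_const b u)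
  show fderiv ℝ (fun y => fderiv ℝ f y b) u a = _
  rw [h'.fderiv]
  simp

theorem norm_D_le (f : R2 → F) (u a : R2) : ‖D a f u‖ ≤ ‖fderiv ℝ f u‖ * ‖a‖ :=
  (fderiv ℝ f u).le_opNorm a

theorem norm_DD_le {f : R2 → F} {u : R2} (hf : ContDiffAt ℝ 2 f u) (a : R2) :
    ‖D a (D a f) u‖ ≤ ‖fderiv ℝ (fderiv ℝ f) u‖ * ‖a‖ ^ 2 := by
  rw [DD_eq hf]
  exact (ContinuousLinearMap.le_opNorm₂ _ a a).trans (le_of_eq (by ring))

theorem norm_second (f : R2 → F) (u : R2) :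
    ‖fderiv ℝ (fderiv ℝ f) u‖ = ‖iteratedFDeriv ℝ 2 f u‖ := by
  rw [← norm_iteratedFDeriv_one (f := fderiv ℝ f), norm_iteratedFDeriv_fderiv]

/-- A function flat to first order at `0` with small second derivative. -/
theorem taylor_small {f : R2 → F} {ρ K : ℝ} (hf : ContDiffOn ℝ ∞ f (ball 0 ρ)) (h0 : f 0 = 0)
    (h1 : fderiv ℝ f 0 = 0) (hK : ∀ u ∈ ball (0 : R2) ρ, ‖fderiv ℝ (fderiv ℝ f) u‖ ≤ K)
    {u : R2} (hu : u ∈ ball (0 : R2) ρ) :
    ‖fderiv ℝ f u‖ ≤ K * ‖u‖ ∧ ‖f u‖ ≤ K * ‖u‖ ^ 2 := by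
  have hρ : (0 : R2) ∈ ball (0 : R2) ρ :=
    mem_ball_self (lt_of_le_of_lt dist_nonneg (mem_ball.1 hu))
  have hd : DifferentiableOn ℝ f (ball 0 ρ) := hf.differentiableOn (by simp)
  have hd2 : DifferentiableOn ℝ (fderiv ℝ f) (ball 0 ρ) :=
    (hf.fderiv_of_isOpen isOpen_ball (m := ∞) le_rfl).differentiableOn (by simp)
  have key : ∀ v ∈ ball (0 : R2) ρ, ‖fderiv ℝ f v‖ ≤ K * ‖v‖ := fun v hv => by
    have := (convex_ball (0 : R2) ρ).norm_image_sub_le_of_norm_fderiv_le (𝕜 := ℝ)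
      (fun x hx => hd2.differentiableAt (isOpen_ball.mem_nhds hx)) hK hρ hv
    simpa [h1] using this
  refine ⟨key u hu, ?_⟩
  have hsub : closedBall (0 : R2) ‖u‖ ⊆ ball 0 ρ :=
    closedBall_subset_ball (mem_ball_zero_iff.1 hu)
  have hK0 : 0 ≤ K := (norm_nonneg (fderiv ℝ (fderiv ℝ f) 0)).trans (hK 0 hρ)
  have := (convex_closedBall (0 : R2) ‖u‖).norm_image_sub_le_of_norm_fderiv_le (𝕜 := ℝ)
    (C := K * ‖u‖) (fun x hx => hd.differentiableAt (isOpen_ball.mem_nhds (hsub hx)))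
    (fun x hx => (key x (hsub hx)).trans
      (mul_le_mul_of_nonneg_left (mem_closedBall_zero_iff.1 hx) hK0))
    (mem_closedBall_self (norm_nonneg u)) (mem_closedBall_zero_iff.2 le_rfl)
  simp only [h0, sub_zero] at this
  exact this.trans (le_of_eq (by ring))

theorem D_smul_fun {g : R2 → ℝ} {G : R2 → F} {u : R2} (hg : DifferentiableAt ℝ g u)
    (hG : DifferentiableAt ℝ G u) (a : R2) :
    D a (fun w => g w • G w) u = g u • D a G u + D a g u • G u := by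
  simp [D, fderiv_fun_smul hg hG]

theorem D_scale (f : R2 → ℝ) (hf : Differentiable ℝ f) (ρ : ℝ) (u a : R2) :
    D a (fun w => f (ρ⁻¹ • w)) u = ρ⁻¹ * D a f (ρ⁻¹ • u) := by
  have h : HasFDerivAt (fun w : R2 => f (ρ⁻¹ • w)) _ u :=
    (hf _).hasFDerivAt.comp u ((hasFDerivAt_id u).const_smul ρ⁻¹)
  simp only [D]
  rw [h.fderiv]
  simp

/-! ### The criterion -/

/-- Estimates which make a map nearly isometric with nonzero normal curvatures. -/
theorem good_of_est {Φ : R2 → V4} {u : R2} {L : R2 →L[ℝ] V4} {n : V4} {κ C : ℝ}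
    (hiso : ∀ a, ip (L a) (L a) = ‖a‖ ^ 2) (hκ : κ ≤ 1 / 24) (hκC : 6 * C * κ < 1)
    (h1 : ∀ a, ‖D a Φ u - L a‖ ≤ κ * ‖a‖) (h2 : ∀ a, ‖D a (D a Φ) u‖ ≤ C * ‖a‖ ^ 2)
    (h3 : ∀ a, |ip n (D a Φ u)| ≤ κ * ‖a‖)
    (h4 : ∀ a, ip n (D a (D a Φ) u) ≤ -(‖a‖ ^ 2 / 2)) :
    (∀ a, |qf (met Φ u) a a - ‖a‖ ^ 2| ≤ 12 * κ * ‖a‖ ^ 2) ∧ 0 < area Φ u ∧
      ∀ a : R2, a ≠ 0 → sff Φ u a a ≠ 0 := by
  have hκ0 : 0 ≤ κ := by
    have := (norm_nonneg _).trans (h1 (pt 1 0))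
    have e : ‖pt 1 0‖ = 1 := by simp [pt, EuclideanSpace.norm_eq, Fin.sum_univ_two]
    rwa [e, mul_one] at this
  have hlen : ∀ a, ‖L a‖ ≤ ‖a‖ := fun a => by
    refine (norm_le_len _).trans (le_of_eq ?_)
    rw [Legal.len, hiso, Real.sqrt_sq (norm_nonneg _)]
  have hmet : ∀ a, |ip (D a Φ u) (D a Φ u) - ‖a‖ ^ 2| ≤ 12 * κ * ‖a‖ ^ 2 := fun a => by
    have e : ip (D a Φ u) (D a Φ u) - ‖a‖ ^ 2 =
        ip (D a Φ u - L a) (D a Φ u - L a + (2 : ℝ) • L a) := by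
      rw [← hiso a]
      simp [Wave.ip_comm (L a) (D a Φ u)]
      ring
    rw [e]
    refine (abs_ip_le_norm _ _).trans ?_
    have t : ‖D a Φ u - L a + (2 : ℝ) • L a‖ ≤ 3 * ‖a‖ := by
      refine (norm_add_le _ _).trans ?_
      rw [norm_smul, Real.norm_eq_abs, abs_two]
      nlinarith [h1 a, hlen a, norm_nonneg a]
    calc 4 * (‖D a Φ u - L a‖ * ‖D a Φ u - L a + (2 : ℝ) • L a‖)
        ≤ 4 * (κ * ‖a‖ * (3 * ‖a‖)) := by
          refine mul_le_mul_of_nonneg_left (mul_le_mul (h1 a) t (norm_nonneg _) ?_) (by norm_num)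
          positivity
      _ = 12 * κ * ‖a‖ ^ 2 := by ring
  have hlow : ∀ a, ‖a‖ ^ 2 / 2 ≤ ip (D a Φ u) (D a Φ u) := fun a => by
    have := (abs_le.1 (hmet a)).1
    nlinarith [sq_nonneg ‖a‖]
  refine ⟨fun a => by rw [qf_met]; exact hmet a, ?_, fun a ha h0 => ?_⟩
  · set p := D (pt 1 0) Φ u with hp
    set q := D (pt 0 1) Φ u with hq
    have hpp : 0 < ip p p := lt_of_lt_of_le (by simp [pt, EuclideanSpace.norm_eq, Fin.sum_univ_two]) (hlow (pt 1 0))
    have hw := hlow (pt (-ip p q) (ip p p))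
    rw [D_coord Φ u, ← hp, ← hq] at hw
    simp only [pt, WithLp.ofLp_toLp, Matrix.cons_val_zero, Matrix.cons_val_one,
      Wave.ip_add_left, Wave.ip_add_right, Wave.ip_smul_left, Wave.ip_smul_right,
      Wave.ip_comm q p] at hw
    rw [show (‖!₂[-ip p q, ip p p]‖ : ℝ) ^ 2 = ip p q ^ 2 + ip p p ^ 2 by
      simp [EuclideanSpace.norm_sq_eq, Fin.sum_univ_two, sq_abs]] at hw
    show 0 < ip p p * ip q q - ip p q ^ 2
    nlinarith [sq_nonneg (ip p q), pow_pos hpp 2]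
  · -- a zero curvature would put `D a (D a Φ)` in the tangent plane
    set w := D a (D a Φ) u with hw
    simp only [sff, perp2, sub_eq_zero, ← hw] at h0
    set p := D (pt 1 0) Φ u with hp
    set q := D (pt 0 1) Φ u with hq
    obtain ⟨α, β, hαβ⟩ : ∃ α β : ℝ, w = α • p + β • q := ⟨_, _, h0⟩
    have hv : w = D (pt α β) Φ u := by
      rw [D_coord Φ u (pt α β), ← hp, ← hq, hαβ]
      simp [pt]
    have hC0 : 0 < ‖a‖ := norm_pos_iff.2 ha
    have hCnn : 0 ≤ C * ‖a‖ ^ 2 := (norm_nonneg _).trans (h2 a)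
    have hvb : ‖pt α β‖ ≤ 3 * C * ‖a‖ ^ 2 := by
      refine (abs_le_of_sq_le_sq' ?_ (by linarith)).2
      have hl := hlow (pt α β)
      rw [← hv] at hl
      have hu := (le_abs_self _).trans (abs_ip_le_norm w w)
      have := mul_le_mul (h2 a) (h2 a) (norm_nonneg _) hCnn
      nlinarith
    have h5 := h4 a
    have h6 := h3 (pt α β)
    rw [← hv] at h6
    have h7 := (abs_le.1 h6).1
    have h8 := mul_le_mul_of_nonneg_left hvb hκ0
    nlinarith [pow_pos hC0 2, mul_lt_mul_of_pos_right hκC (pow_pos hC0 2)]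

/-! ### The blended map -/

/-- The weight of the inner map. -/
def fade (v : R2) : ℝ := 1 - Real.smoothTransition (20 / 3 * nsq v - 2)

theorem contDiff_fade : ContDiff ℝ ∞ fade := by
  have h : ∀ i : Fin 2, ContDiff ℝ ∞ fun z : R2 => z i :=
    fun i => (EuclideanSpace.proj (𝕜 := ℝ) i).contDiff
  exact contDiff_const.sub (Real.smoothTransition.contDiff.comp
    ((contDiff_const.mul (((h 0).pow 2).add ((h 1).pow 2))).sub contDiff_const))

theorem fade_one {v : R2} (h : nsq v ≤ 3 / 10) : fade v = 1 := by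
  simp [fade, Real.smoothTransition.zero_of_nonpos (show 20 / 3 * nsq v - 2 ≤ 0 by linarith)]

theorem fade_zero {v : R2} (h : 9 / 20 ≤ nsq v) : fade v = 0 := by
  simp [fade, Real.smoothTransition.one_of_one_le (show 1 ≤ 20 / 3 * nsq v - 2 by linarith)]

theorem exists_fade_bound : ∃ C, 1 ≤ C ∧ ∀ v ∈ closedBall (0 : R2) 1,
    |fade v| ≤ 1 ∧ ‖fderiv ℝ fade v‖ ≤ C ∧ ‖fderiv ℝ (fderiv ℝ fade) v‖ ≤ C := by
  obtain ⟨C1, h1⟩ := (isCompact_closedBall (0 : R2) 1).exists_bound_of_continuousOn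
    (contDiff_fade.continuous_fderiv (by simp)).norm.continuousOn
  obtain ⟨C2, h2⟩ := (isCompact_closedBall (0 : R2) 1).exists_bound_of_continuousOn
    ((contDiff_fade.fderiv_right (m := ∞) le_rfl).continuous_fderiv (by simp)).norm.continuousOn
  refine ⟨max (max C1 C2) 1, le_max_right _ _, fun v hv => ⟨?_, ?_, ?_⟩⟩
  · rw [fade, abs_le]
    constructor <;>
      linarith [Real.smoothTransition.nonneg (20 / 3 * nsq v - 2),
        Real.smoothTransition.le_one (20 / 3 * nsq v - 2)]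
  · exact ((le_abs_self _).trans (h1 v hv)).trans ((le_max_left _ _).trans (le_max_left _ _))
  · exact ((le_abs_self _).trans (h2 v hv)).trans ((le_max_right _ _).trans (le_max_left _ _))

/-- `W` continued by `B`. -/
def blend (ρ : ℝ) (W B : R2 → V4) (u : R2) : V4 :=
  if ‖u‖ < 3 * ρ / 4 then B u + fade (ρ⁻¹ • u) • (W u - B u) else B u

theorem nsq_scale {ρ : ℝ} (hρ : 0 < ρ) (u : R2) : nsq (ρ⁻¹ • u) = ‖u‖ ^ 2 / ρ ^ 2 := by
  rw [← norm_sq_eq, norm_smul, norm_inv, Real.norm_eq_abs, abs_of_pos hρ]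
  ring

theorem blend_inner {ρ : ℝ} (hρ : 0 < ρ) (W B : R2 → V4) {u : R2}
    (hu : ‖u‖ < 27 / 50 * ρ) : blend ρ W B =ᶠ[𝓝 u] W := by
  filter_upwards [(isOpen_lt continuous_norm continuous_const).mem_nhds hu] with v hv
  have h1 : ‖v‖ < 3 * ρ / 4 := by linarith [show ‖v‖ < 27 / 50 * ρ from hv]
  rw [blend, if_pos h1, fade_one, one_smul, add_sub_cancel]
  rw [nsq_scale hρ, div_le_iff₀ (pow_pos hρ 2)]
  have := pow_le_pow_left₀ (norm_nonneg v) (show ‖v‖ ≤ 27 / 50 * ρ from le_of_lt hv) 2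
  nlinarith

theorem blend_outer {ρ : ℝ} (hρ : 0 < ρ) (W B : R2 → V4) {u : R2}
    (hu : 68 / 100 * ρ < ‖u‖) : blend ρ W B =ᶠ[𝓝 u] B := by
  filter_upwards [(isOpen_lt continuous_const continuous_norm).mem_nhds hu] with v hv
  rw [blend]
  split_ifs with h
  · rw [fade_zero, zero_smul, add_zero]
    rw [nsq_scale hρ, le_div_iff₀ (pow_pos hρ 2)]
    have := pow_le_pow_left₀ (by positivity) (show 68 / 100 * ρ ≤ ‖v‖ from le_of_lt hv) 2
    nlinarith
  · rfl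

/-- Continuity of the second derivative on a ball. -/
theorem continuousOn_second {f : R2 → F} {R : ℝ} (hf : ContDiffOn ℝ ∞ f (ball 0 R)) :
    ContinuousOn (fderiv ℝ (fderiv ℝ f)) (ball 0 R) :=
  ((hf.fderiv_of_isOpen isOpen_ball (m := ∞) le_rfl).fderiv_of_isOpen isOpen_ball (m := ∞)
    le_rfl).continuousOn

theorem continuousOn_second_norm {f : R2 → F} {R : ℝ} (hf : ContDiffOn ℝ ∞ f (ball 0 R)) :
    ContinuousOn (fun u => ‖fderiv ℝ (fderiv ℝ f) u‖) (ball 0 R) :=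
  (continuous_norm (E := R2 →L[ℝ] R2 →L[ℝ] F)).comp_continuousOn (continuousOn_second hf)

/-- In the unit sphere the scalar product with the point: first and second derivatives. -/
theorem sphere_jet {B : R2 → V4} {U : Set R2} (hU : IsOpen U) (hB : ContDiffOn ℝ ∞ B U)
    (hs : ∀ z ∈ U, ip (B z) (B z) = 1) {z : R2} (hz : z ∈ U) (a : R2) :
    ip (B z) (D a B z) = 0 ∧ ip (B z) (D a (D a B) z) = -ip (D a B z) (D a B z) := by
  have h0 : ∀ y ∈ U, ip (B y) (D a B y) = 0 := fun y hy => by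
    have hd : DifferentiableAt ℝ B y :=
      (hB.differentiableOn (by simp)).differentiableAt (hU.mem_nhds hy)
    have h := Legal.D_ip hd hd a
    have e : (fun w => ip (B w) (B w)) =ᶠ[𝓝 y] fun _ => (1 : ℝ) := by
      filter_upwards [hU.mem_nhds hy] with w hw using hs w hw
    have e2 : D a (fun w => ip (B w) (B w)) y = 0 := by simp [D, e.fderiv_eq]
    rw [e2, Wave.ip_comm (D a B y) (B y)] at h
    linarith
  refine ⟨h0 z hz, ?_⟩
  have hd : DifferentiableAt ℝ B z :=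
    (hB.differentiableOn (by simp)).differentiableAt (hU.mem_nhds hz)
  have h := Legal.D_ip hd (Legal.diffAt_D hU hB a hz) a
  have e : (fun w => ip (B w) (D a B w)) =ᶠ[𝓝 z] fun _ => (0 : ℝ) := by
    filter_upwards [hU.mem_nhds hz] with w hw using h0 w hw
  have e2 : D a (fun w => ip (B w) (D a B w)) z = 0 := by
    show fderiv ℝ (fun w => ip (B w) (D a B w)) z a = 0
    rw [e.fderiv_eq]; simp
  rw [e2] at h
  linarith

theorem diffAt_of_ball {G : Type} [NormedAddCommGroup G] [NormedSpace ℝ G] {f : R2 → G} {R : ℝ}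
    (hf : ContDiffOn ℝ ∞ f (ball 0 R)) {u : R2} (hu : u ∈ ball (0 : R2) R) :
    DifferentiableAt ℝ f u :=
  (hf.differentiableOn (by simp)).differentiableAt (isOpen_ball.mem_nhds hu)

theorem at_two {G : Type} [NormedAddCommGroup G] [NormedSpace ℝ G] {f : R2 → G} {R : ℝ}
    (hf : ContDiffOn ℝ ∞ f (ball 0 R)) {u : R2} (hu : u ∈ ball (0 : R2) R) :
    ContDiffAt ℝ 2 f u :=
  (hf.contDiffAt (isOpen_ball.mem_nhds hu)).of_le two_le_top

theorem D_ipL (n : V4) {f : R2 → V4} {u : R2} (hf : DifferentiableAt ℝ f u) (a : R2) :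
    D a (fun w => ip n (f w)) u = ip n (D a f u) := by
  simp only [D]
  rw [show (fun w => ip n (f w)) = ipL n ∘ f from rfl,
    ((ipL n).hasFDerivAt.comp u hf.hasFDerivAt).fderiv]
  rfl

theorem DD_ipL (n : V4) {f : R2 → V4} {R : ℝ} (hf : ContDiffOn ℝ ∞ f (ball 0 R)) {u : R2}
    (hu : u ∈ ball (0 : R2) R) (a b : R2) :
    D a (D b fun w => ip n (f w)) u = ip n (D a (D b f) u) := by
  have e : D b (fun w => ip n (f w)) =ᶠ[𝓝 u] fun w => ip n (D b f w) := by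
    filter_upwards [isOpen_ball.mem_nhds hu] with w hw using D_ipL n (diffAt_of_ball hf hw) b
  show fderiv ℝ (D b fun w => ip n (f w)) u a = _
  rw [e.fderiv_eq]
  exact D_ipL n (Legal.diffAt_D isOpen_ball hf b hu) a

theorem D_sub_fun {f g : R2 → V4} {R : ℝ} (hf : ContDiffOn ℝ ∞ f (ball 0 R))
    (hg : ContDiffOn ℝ ∞ g (ball 0 R)) {u : R2} (hu : u ∈ ball (0 : R2) R) (a b : R2) :
    D a (fun w => f w - g w) u = D a f u - D a g u ∧
      D a (D b fun w => f w - g w) u = D a (D b f) u - D a (D b g) u := by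
  have h1 : ∀ w ∈ ball (0 : R2) R, ∀ c,
      D c (fun w => f w - g w) w = D c f w - D c g w := fun w hw c => by
    simp only [D]
    rw [fderiv_fun_sub (diffAt_of_ball hf hw) (diffAt_of_ball hg hw)]
    rfl
  refine ⟨h1 u hu a, ?_⟩
  have e : D b (fun w => f w - g w) =ᶠ[𝓝 u] fun w => D b f w - D b g w := by
    filter_upwards [isOpen_ball.mem_nhds hu] with w hw using h1 w hw b
  show fderiv ℝ (D b fun w => f w - g w) u a = _
  rw [e.fderiv_eq, fderiv_fun_sub (Legal.diffAt_D isOpen_ball hf b hu)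
    (Legal.diffAt_D isOpen_ball hg b hu)]
  rfl

/-- Two contacts: the hypotheses of the blend. -/
structure Contact (A B : R2 → V4) (R : ℝ) : Prop where
  pos : 0 < R
  smoothA : ContDiffOn ℝ ∞ A (ball 0 R)
  smoothB : ContDiffOn ℝ ∞ B (ball 0 R)
  sphA : ∀ z ∈ ball (0 : R2) R, ip (A z) (A z) = 1
  sphB : ∀ z ∈ ball (0 : R2) R, ip (B z) (B z) = 1
  val : A 0 = B 0
  jet : fderiv ℝ A 0 = fderiv ℝ B 0
  iso : ∀ a, ip (D a B 0) (D a B 0) = ‖a‖ ^ 2

theorem Contact.second_zero {A B : R2 → V4} {R : ℝ} (h : Contact A B R) :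
    fderiv ℝ (fderiv ℝ fun w => ip (B 0) (A w - B w)) 0 = 0 := by
  have h0R : (0 : R2) ∈ ball (0 : R2) R := mem_ball_self h.pos
  have hg : ContDiffOn ℝ ∞ (fun w => ip (B 0) (A w - B w)) (ball 0 R) :=
    (ipL (B 0)).contDiff.comp_contDiffOn (h.smoothA.sub h.smoothB)
  have hdiag : ∀ a, fderiv ℝ (fderiv ℝ fun w => ip (B 0) (A w - B w)) 0 a a = 0 := fun a => by
    rw [← DD_eq (at_two hg h0R), DD_ipL (B 0) (h.smoothA.sub h.smoothB) h0R,
      (D_sub_fun h.smoothA h.smoothB h0R a a).2, Wave.ip_sub_right]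
    have e := (sphere_jet isOpen_ball h.smoothA h.sphA h0R a).2
    rw [h.val, show D a A 0 = D a B 0 by simp only [D]; rw [h.jet]] at e
    rw [e, (sphere_jet isOpen_ball h.smoothB h.sphB h0R a).2, sub_self]
  refine ContinuousLinearMap.ext fun a => ContinuousLinearMap.ext fun b => ?_
  have hs := (at_two hg h0R).isSymmSndFDerivAt (by simp) a b
  have h' := hdiag (a + b)
  simp only [map_add, add_apply, hdiag, zero_add, add_zero] at h'
  simp only [zero_apply]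
  linarith

/-- Estimates near the contact. -/
structure Jet2 (A B : R2 → V4) (κ κ' C : ℝ) (u : R2) : Prop where
  first : ∀ a, ‖D a B u - D a B 0‖ ≤ κ * ‖a‖
  norm1 : ∀ a, |ip (B 0) (D a B u)| ≤ κ * ‖a‖
  size : ∀ a, ‖D a (D a B) u‖ ≤ C * ‖a‖ ^ 2
  curv : ∀ a, ip (B 0) (D a (D a B) u) ≤ -(3 / 4 * ‖a‖ ^ 2)
  diff : ‖fderiv ℝ (fderiv ℝ fun w => A w - B w) u‖ ≤ C
  diffN : ‖fderiv ℝ (fderiv ℝ fun w => ip (B 0) (A w - B w)) u‖ ≤ κ'

theorem Contact.exists_radius {A B : R2 → V4} {R : ℝ} (h : Contact A B R) :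
    ∃ C, 0 ≤ C ∧ ∀ κ κ' : ℝ, 0 < κ → 0 < κ' → ∃ R0, 0 < R0 ∧ R0 ≤ R ∧
      ∀ u ∈ ball (0 : R2) R0, Jet2 A B κ κ' C u := by
  have h0R : (0 : R2) ∈ ball (0 : R2) R := mem_ball_self h.pos
  have hsub : closedBall (0 : R2) (R / 2) ⊆ ball 0 R :=
    closedBall_subset_ball (by linarith [h.pos])
  have hE : ContDiffOn ℝ ∞ (fun w => A w - B w) (ball 0 R) := h.smoothA.sub h.smoothB
  have hg : ContDiffOn ℝ ∞ (fun w => ip (B 0) (A w - B w)) (ball 0 R) :=
    (ipL (B 0)).contDiff.comp_contDiffOn hE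
  obtain ⟨C1, hC1⟩ := (isCompact_closedBall (0 : R2) (R / 2)).exists_bound_of_continuousOn
    ((continuousOn_second_norm hE).mono hsub)
  obtain ⟨C2, hC2⟩ := (isCompact_closedBall (0 : R2) (R / 2)).exists_bound_of_continuousOn
    ((continuousOn_second_norm h.smoothB).mono hsub)
  refine ⟨max (max C1 C2) 0, le_max_right _ _, fun κ κ' hκ hκ' => ?_⟩
  set N := ‖ipL (B 0)‖ with hN
  have hN0 : 0 ≤ N := norm_nonneg _
  have c1 : Tendsto (fderiv ℝ B) (𝓝 0) (𝓝 (fderiv ℝ B 0)) :=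
    (h.smoothB.fderiv_of_isOpen isOpen_ball (m := ∞) le_rfl).continuousOn.continuousAt
      (isOpen_ball.mem_nhds h0R)
  have c2 : Tendsto (fun u => ‖fderiv ℝ (fderiv ℝ B) u - fderiv ℝ (fderiv ℝ B) 0‖) (𝓝 0)
      (𝓝 0) := by
    have t := ((continuous_norm (E := R2 →L[ℝ] R2 →L[ℝ] V4)).comp_continuousOn
      ((continuousOn_second h.smoothB).sub
        (continuousOn_const (c := fderiv ℝ (fderiv ℝ B) 0)))).continuousAt
      (isOpen_ball.mem_nhds h0R)
    simpa [ContinuousAt, Function.comp_def, ContinuousLinearMap.opNorm_zero] using t.tendsto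
  have c3 : Tendsto (fun u => ‖fderiv ℝ (fderiv ℝ fun w => ip (B 0) (A w - B w)) u‖) (𝓝 0)
      (𝓝 0) := by
    have t := ((continuousOn_second_norm hg).continuousAt (isOpen_ball.mem_nhds h0R)).tendsto
    rw [h.second_zero] at t
    simpa [ContinuousLinearMap.opNorm_zero] using t
  have e1 := (tendsto_iff_norm_sub_tendsto_zero.1 c1).eventually
    (ge_mem_nhds (show 0 < κ / (N + 1) by positivity))
  have e2 := c2.eventually (ge_mem_nhds (show 0 < 1 / (4 * (N + 1)) by positivity))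
  have e3 := c3.eventually (ge_mem_nhds hκ')
  obtain ⟨R', hR', hball⟩ := Metric.eventually_nhds_iff_ball.1 (e1.and (e2.and e3))
  refine ⟨min R' (R / 2), lt_min hR' (by linarith [h.pos]),
    (min_le_right _ _).trans (by linarith [h.pos]), fun u hu => ?_⟩
  have hu2 : u ∈ closedBall (0 : R2) (R / 2) :=
    ball_subset_closedBall (ball_subset_ball (min_le_right _ _) hu)
  obtain ⟨f1, f2, f3⟩ := hball u (ball_subset_ball (min_le_left _ _) hu)
  have hu1 := hsub hu2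
  have t1 : ∀ a, ‖D a B u - D a B 0‖ ≤ κ / (N + 1) * ‖a‖ := fun a =>
    le_trans (le_of_eq rfl) (((fderiv ℝ B u - fderiv ℝ B 0).le_opNorm a).trans
      (mul_le_mul_of_nonneg_right f1 (norm_nonneg a)))
  refine ⟨fun a => (t1 a).trans (mul_le_mul_of_nonneg_right
    (div_le_self hκ.le (by linarith)) (norm_nonneg a)), fun a => ?_, fun a => ?_, fun a => ?_,
    ((le_abs_self _).trans (hC1 u hu2)).trans ((le_max_left _ _).trans (le_max_left _ _)), f3⟩
  · have e : ip (B 0) (D a B u) = ipL (B 0) (D a B u - D a B 0) := by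
      rw [map_sub, ipL_apply, ipL_apply, (sphere_jet isOpen_ball h.smoothB h.sphB h0R a).1,
        sub_zero]
    rw [e, ← Real.norm_eq_abs]
    refine (((ipL (B 0)).le_opNorm _).trans (mul_le_mul_of_nonneg_left (t1 a) hN0)).trans ?_
    rw [← mul_assoc]
    refine mul_le_mul_of_nonneg_right ?_ (norm_nonneg a)
    rw [← mul_div_assoc, div_le_iff₀ (by positivity)]
    nlinarith
  · exact (norm_DD_le (at_two h.smoothB hu1) a).trans (mul_le_mul_of_nonneg_right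
      (((le_abs_self _).trans (hC2 u hu2)).trans ((le_max_right _ _).trans (le_max_left _ _)))
      (sq_nonneg _))
  · have d0 : ipL (B 0) (fderiv ℝ (fderiv ℝ B) 0 a a) = -‖a‖ ^ 2 := by
      rw [← DD_eq (at_two h.smoothB h0R), ipL_apply,
        (sphere_jet isOpen_ball h.smoothB h.sphB h0R a).2, h.iso]
    have d1 : |ipL (B 0) (fderiv ℝ (fderiv ℝ B) u a a) -
        ipL (B 0) (fderiv ℝ (fderiv ℝ B) 0 a a)| ≤ 1 / 4 * ‖a‖ ^ 2 := by
      rw [← map_sub, ← Real.norm_eq_abs]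
      refine ((ipL (B 0)).le_opNorm _).trans ?_
      have t := ((fderiv ℝ (fderiv ℝ B) u - fderiv ℝ (fderiv ℝ B) 0).le_opNorm₂ a a).trans
        (mul_le_mul_of_nonneg_right (mul_le_mul_of_nonneg_right f2 (norm_nonneg a)) (norm_nonneg a))
      refine (mul_le_mul_of_nonneg_left t hN0).trans ?_
      rw [show N * (1 / (4 * (N + 1)) * ‖a‖ * ‖a‖) = N / (4 * (N + 1)) * ‖a‖ ^ 2 by ring]
      refine mul_le_mul_of_nonneg_right ?_ (sq_nonneg _)
      rw [div_le_iff₀ (by positivity)]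
      linarith
    rw [DD_eq (at_two h.smoothB hu1), ← ipL_apply]
    linarith [(abs_le.1 d1).2]

/-- The weight at scale `ρ`. -/
theorem fade_est {Cf ρ : ℝ}
    (hCf : ∀ v ∈ closedBall (0 : R2) 1,
      |fade v| ≤ 1 ∧ ‖fderiv ℝ fade v‖ ≤ Cf ∧ ‖fderiv ℝ (fderiv ℝ fade) v‖ ≤ Cf)
    (hρ : 0 < ρ) {u : R2} (hu : ‖u‖ ≤ ρ) (a : R2) :
    |fade (ρ⁻¹ • u)| ≤ 1 ∧ |D a (fun w => fade (ρ⁻¹ • w)) u| ≤ Cf / ρ * ‖a‖ ∧
      |D a (D a fun w => fade (ρ⁻¹ • w)) u| ≤ Cf / ρ ^ 2 * ‖a‖ ^ 2 := by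
  have hv : ρ⁻¹ • u ∈ closedBall (0 : R2) 1 := by
    rw [mem_closedBall_zero_iff, norm_smul, norm_inv, Real.norm_eq_abs, abs_of_pos hρ,
      inv_mul_le_iff₀ hρ]
    linarith
  obtain ⟨p0, p1, p2⟩ := hCf _ hv
  have hfd : Differentiable ℝ fade := contDiff_fade.differentiable (by simp)
  refine ⟨p0, ?_, ?_⟩
  · rw [D_scale fade hfd, abs_mul, abs_of_pos (inv_pos.2 hρ), ← Real.norm_eq_abs]
    refine (mul_le_mul_of_nonneg_left ((norm_D_le fade _ a).trans
      (mul_le_mul_of_nonneg_right p1 (norm_nonneg a))) (by positivity)).trans (le_of_eq ?_)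
    ring
  · have hD1 : ContDiffOn ℝ ∞ (D a fade) univ :=
      Wave.contDiffOn_D isOpen_univ contDiff_fade.contDiffOn a
    have hd' : Differentiable ℝ (D a fade) :=
      fun w => (hD1.differentiableOn (by simp)).differentiableAt univ_mem
    have e : (D a fun w => fade (ρ⁻¹ • w)) = fun w => ρ⁻¹ * D a fade (ρ⁻¹ • w) :=
      funext fun w => D_scale fade hfd ρ w a
    have e' : D a (fun w => ρ⁻¹ * D a fade (ρ⁻¹ • w)) u =
        ρ⁻¹ * (ρ⁻¹ * D a (D a fade) (ρ⁻¹ • u)) := by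
      have h : HasFDerivAt (fun w : R2 => ρ⁻¹ * D a fade (ρ⁻¹ • w)) _ u :=
        (((hd' _).hasFDerivAt).comp u ((hasFDerivAt_id u).const_smul ρ⁻¹)).const_mul ρ⁻¹
      show fderiv ℝ (fun w : R2 => ρ⁻¹ * D a fade (ρ⁻¹ • w)) u a = _
      rw [h.fderiv]
      simp [D]
    rw [e, e', abs_mul, abs_mul, abs_of_pos (inv_pos.2 hρ), ← Real.norm_eq_abs]
    refine (mul_le_mul_of_nonneg_left (mul_le_mul_of_nonneg_left ((norm_DD_le
      (contDiff_fade.contDiffAt.of_le two_le_top) a).trans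
      (mul_le_mul_of_nonneg_right p2 (sq_nonneg _))) (by positivity))
      (by positivity)).trans (le_of_eq ?_)
    ring

/-- Derivatives of the blended map inside. -/
theorem blend_D {φ : R2 → ℝ} {B Z : R2 → V4} {S : Set R2} (hS : IsOpen S)
    (hφ : ContDiff ℝ ∞ φ) (hB : ContDiffOn ℝ ∞ B S) (hZ : ContDiffOn ℝ ∞ Z S) {Φ : R2 → V4}
    {u : R2} (hu : u ∈ S) (he : Φ =ᶠ[𝓝 u] fun w => B w + φ w • Z w) (a : R2) :
    ContDiffAt ℝ ∞ Φ u ∧ D a Φ u = D a B u + (φ u • D a Z u + D a φ u • Z u) ∧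
      D a (D a Φ) u = D a (D a B) u + ((φ u • D a (D a Z) u + D a φ u • D a Z u) +
        (D a φ u • D a Z u + D a (D a φ) u • Z u)) := by
  have hBd : ∀ w ∈ S, DifferentiableAt ℝ B w := fun w hw =>
    (hB.differentiableOn (by simp)).differentiableAt (hS.mem_nhds hw)
  have hZd : ∀ w ∈ S, DifferentiableAt ℝ Z w := fun w hw =>
    (hZ.differentiableOn (by simp)).differentiableAt (hS.mem_nhds hw)
  have hφd : Differentiable ℝ φ := hφ.differentiable (by simp)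
  have hone : ∀ w ∈ S, D a (fun w => B w + φ w • Z w) w =
      D a B w + (φ w • D a Z w + D a φ w • Z w) := fun w hw => by
    rw [← D_smul_fun (hφd w) (hZd w hw) a]
    simp only [D]
    rw [fderiv_fun_add (hBd w hw) (DifferentiableAt.fun_smul (hφd w) (hZd w hw))]
    rfl
  have hφu : ContDiffAt ℝ ∞ φ u := hφ.contDiffAt
  have hZu : ContDiffAt ℝ ∞ Z u := hZ.contDiffAt (hS.mem_nhds hu)
  have hs : ContDiffAt ℝ ∞ (fun w => B w + φ w • Z w) u :=
    (hB.contDiffAt (hS.mem_nhds hu)).add (hφu.smul hZu)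
  refine ⟨hs.congr_of_eventuallyEq he, ?_, ?_⟩
  · rw [← hone u hu]; simp only [D, he.fderiv_eq]
  · have h : D a Φ =ᶠ[𝓝 u] fun w => D a B w + (φ w • D a Z w + D a φ w • Z w) := by
      filter_upwards [he.fderiv (𝕜 := ℝ), hS.mem_nhds hu] with w hw hwS
      rw [← hone w hwS]
      simp only [D, hw]
    have d1 := Legal.diffAt_D hS hB a hu
    have d2 := Legal.diffAt_D hS hZ a hu
    have d3 : DifferentiableAt ℝ (D a φ) u :=
      ((Wave.contDiffOn_D isOpen_univ (hφ.contDiffOn (s := univ)) a).differentiableOn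
        (by simp)).differentiableAt univ_mem
    show fderiv ℝ (D a Φ) u a = _
    rw [h.fderiv_eq, fderiv_fun_add d1 (DifferentiableAt.fun_add
      (DifferentiableAt.fun_smul (hφd u) d2) (DifferentiableAt.fun_smul d3 (hZd u hu))),
      fderiv_fun_add (DifferentiableAt.fun_smul (hφd u) d2)
        (DifferentiableAt.fun_smul d3 (hZd u hu))]
    simp only [_root_.add_apply]
    rw [← D_smul_fun (hφd u) d2 a, ← D_smul_fun d3 (hZd u hu) a]
    rfl

/-- The difference `W - B` near the contact. -/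
theorem Contact.diff_est {A B W : R2 → V4} {R ρ ε κ κ' C : ℝ} (h : Contact A B R) (hρ : 0 < ρ)
    (hρ1 : ρ ≤ 1) (hρR : ρ ≤ R) (hW : ContDiffOn ℝ ∞ W (ball 0 ρ))
    (hWA : ∀ i ≤ 2, ∀ u ∈ ball (0 : R2) (3 * ρ / 4),
      ‖iteratedFDeriv ℝ i (fun w => W w - A w) u‖ ≤ ε)
    (hJ : ∀ u ∈ ball (0 : R2) (3 * ρ / 4), Jet2 A B κ κ' C u)
    (hε : ε ≤ ρ ^ 2) (hεN : ‖ipL (B 0)‖ * ε ≤ κ' * ρ ^ 2) {u : R2}
    (hu : u ∈ ball (0 : R2) (3 * ρ / 4)) (a : R2) :
    (‖W u - B u‖ ≤ (C + 1) * ρ ^ 2 ∧ ‖D a (fun w => W w - B w) u‖ ≤ (C + 1) * ρ * ‖a‖ ∧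
      ‖D a (D a fun w => W w - B w) u‖ ≤ (C + 1) * ‖a‖ ^ 2) ∧
    |ip (B 0) (W u - B u)| ≤ 2 * κ' * ρ ^ 2 ∧
      |ip (B 0) (D a (fun w => W w - B w) u)| ≤ 2 * κ' * ρ * ‖a‖ ∧
      |ip (B 0) (D a (D a fun w => W w - B w) u)| ≤ 2 * κ' * ‖a‖ ^ 2 := by
  set S := ball (0 : R2) (3 * ρ / 4) with hS
  have hS0 : (0 : R2) ∈ S := mem_ball_self (by positivity)
  have hsub : S ⊆ ball (0 : R2) R := ball_subset_ball (by linarith)
  have hA := h.smoothA.mono hsub
  have hB := h.smoothB.mono hsub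
  have hW' : ContDiffOn ℝ ∞ W S := hW.mono (ball_subset_ball (by linarith))
  have hE : ContDiffOn ℝ ∞ (fun w => A w - B w) S := hA.sub hB
  have hWAs : ContDiffOn ℝ ∞ (fun w => W w - A w) S := hW'.sub hA
  have eW : (fun w => W w - B w) = fun w => (W w - A w) - (B w - A w) := funext fun w => by abel
  have d1 : D a (fun w => W w - B w) u =
      D a (fun w => W w - A w) u + D a (fun w => A w - B w) u := by
    rw [(D_sub_fun hW' hB hu a a).1, (D_sub_fun hW' hA hu a a).1, (D_sub_fun hA hB hu a a).1]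
    abel
  have d2 : D a (D a fun w => W w - B w) u =
      D a (D a fun w => W w - A w) u + D a (D a fun w => A w - B w) u := by
    rw [(D_sub_fun hW' hB hu a a).2, (D_sub_fun hW' hA hu a a).2, (D_sub_fun hA hB hu a a).2]
    abel
  have d0 : W u - B u = (W u - A u) + (A u - B u) := by abel
  have w0 : ‖W u - A u‖ ≤ ε := by simpa using hWA 0 (by norm_num) u hu
  have w1 : ‖D a (fun y => W y - A y) u‖ ≤ ε * ‖a‖ :=
    (norm_D_le _ u a).trans (mul_le_mul_of_nonneg_right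
      (by rw [← norm_iteratedFDeriv_one]; exact hWA 1 (by norm_num) u hu) (norm_nonneg a))
  have w2 : ‖D a (D a fun y => W y - A y) u‖ ≤ ε * ‖a‖ ^ 2 :=
    (norm_DD_le (at_two hWAs hu) a).trans (mul_le_mul_of_nonneg_right
      (by rw [norm_second]; exact hWA 2 le_rfl u hu) (sq_nonneg _))
  have huρ : ‖u‖ ≤ ρ := by linarith [mem_ball_zero_iff.1 hu]
  have h0R : (0 : R2) ∈ ball (0 : R2) R := mem_ball_self h.pos
  have hj : fderiv ℝ (fun w => A w - B w) 0 = 0 := by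
    rw [fderiv_fun_sub (diffAt_of_ball h.smoothA h0R) (diffAt_of_ball h.smoothB h0R), h.jet,
      sub_self]
  obtain ⟨tE1, tE0⟩ := taylor_small hE (sub_eq_zero.2 h.val) hj (fun w hw => (hJ w hw).diff) hu
  have hg : ContDiffOn ℝ ∞ (fun w => ip (B 0) (A w - B w)) S :=
    (ipL (B 0)).contDiff.comp_contDiffOn hE
  obtain ⟨tg1, tg0⟩ := taylor_small hg (by simp [h.val])
    (ContinuousLinearMap.ext fun b => (D_ipL (B 0) (diffAt_of_ball hE hS0) b).trans
      (by simp [D, hj])) (fun w hw => (hJ w hw).diffN) hu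
  have hC : 0 ≤ C := (norm_nonneg (fderiv ℝ (fderiv ℝ fun w => A w - B w) u)).trans (hJ u hu).diff
  have hκ' : 0 ≤ κ' :=
    (norm_nonneg (fderiv ℝ (fderiv ℝ fun w => ip (B 0) (A w - B w)) u)).trans (hJ u hu).diffN
  have hu2 := pow_le_pow_left₀ (norm_nonneg u) huρ 2
  have hερ : ε ≤ ρ := hε.trans (by nlinarith)
  have hε1 : ε ≤ 1 := hερ.trans hρ1
  have ha := norm_nonneg a
  refine ⟨⟨?_, ?_, ?_⟩, ?_, ?_, ?_⟩
  · rw [d0]
    refine (norm_add_le _ _).trans ((add_le_add (w0.trans hε) (tE0.trans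
      (mul_le_mul_of_nonneg_left hu2 hC))).trans (le_of_eq (by ring)))
  · rw [d1]
    refine (norm_add_le _ _).trans ((add_le_add
      (w1.trans (mul_le_mul_of_nonneg_right hερ ha)) ((norm_D_le _ u a).trans
      (mul_le_mul_of_nonneg_right (tE1.trans (mul_le_mul_of_nonneg_left huρ hC)) ha))).trans
      (le_of_eq (by ring)))
  · rw [d2]
    refine (norm_add_le _ _).trans ((add_le_add
      (w2.trans (mul_le_mul_of_nonneg_right hε1 (sq_nonneg _)))
      ((norm_DD_le (at_two hE hu) a).trans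
      (mul_le_mul_of_nonneg_right (hJ u hu).diff (sq_nonneg _)))).trans (le_of_eq (by ring)))
  · have t : |ip (B 0) (W u - A u)| ≤ κ' * ρ ^ 2 := by
      rw [← ipL_apply, ← Real.norm_eq_abs]
      exact ((ipL (B 0)).le_opNorm _).trans
        ((mul_le_mul_of_nonneg_left w0 (norm_nonneg _)).trans hεN)
    rw [d0, Wave.ip_add_right]
    exact (abs_add_le _ _).trans ((add_le_add t (tg0.trans
      (mul_le_mul_of_nonneg_left hu2 hκ'))).trans (le_of_eq (by ring)))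
  · have t : |ip (B 0) (D a (fun w => W w - A w) u)| ≤ κ' * ρ * ‖a‖ := by
      rw [← ipL_apply, ← Real.norm_eq_abs]
      refine ((ipL (B 0)).le_opNorm _).trans
        ((mul_le_mul_of_nonneg_left w1 (norm_nonneg _)).trans ?_)
      rw [← mul_assoc]
      refine mul_le_mul_of_nonneg_right (hεN.trans ?_) ha
      exact mul_le_mul_of_nonneg_left (by nlinarith) hκ'
    rw [d1, Wave.ip_add_right, ← D_ipL (B 0) (diffAt_of_ball hE hu) a]
    exact (abs_add_le _ _).trans ((add_le_add t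
      ((norm_D_le (fun w => ip (B 0) (A w - B w)) u a).trans
      (mul_le_mul_of_nonneg_right (tg1.trans (mul_le_mul_of_nonneg_left huρ hκ')) ha))).trans
      (le_of_eq (by ring)))
  · have t : |ip (B 0) (D a (D a fun w => W w - A w) u)| ≤ κ' * ‖a‖ ^ 2 := by
      rw [← ipL_apply, ← Real.norm_eq_abs]
      refine ((ipL (B 0)).le_opNorm _).trans
        ((mul_le_mul_of_nonneg_left w2 (norm_nonneg _)).trans ?_)
      rw [← mul_assoc]
      refine mul_le_mul_of_nonneg_right (hεN.trans ?_) (sq_nonneg _)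
      exact mul_le_of_le_one_right hκ' (pow_le_one₀ hρ.le hρ1)
    rw [d2, Wave.ip_add_right, ← DD_ipL (B 0) hE hu a a]
    exact (abs_add_le _ _).trans ((add_le_add t ((norm_DD_le (at_two hg hu) a).trans
      (mul_le_mul_of_nonneg_right (hJ u hu).diffN (sq_nonneg _)))).trans (le_of_eq (by ring)))

/-- Adding the correction keeps the estimates. -/
theorem combine_est {n b0 b1 b2 z0 z1 z2 : V4} {f f1 f2 C Cf κ κ' ρ A : ℝ}
    (hρ : 0 < ρ) (hA : 0 ≤ A) (hb1 : ‖b1 - b0‖ ≤ κ / 2 * A) (hn1 : |ip n b1| ≤ κ / 2 * A)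
    (hb2 : ‖b2‖ ≤ C * A ^ 2) (hn2 : ip n b2 ≤ -(3 / 4 * A ^ 2)) (hf : |f| ≤ 1)
    (hf1 : |f1| ≤ Cf / ρ * A) (hf2 : |f2| ≤ Cf / ρ ^ 2 * A ^ 2)
    (hz0 : ‖z0‖ ≤ (C + 1) * ρ ^ 2) (hz1 : ‖z1‖ ≤ (C + 1) * ρ * A)
    (hz2 : ‖z2‖ ≤ (C + 1) * A ^ 2) (hy0 : |ip n z0| ≤ 2 * κ' * ρ ^ 2)
    (hy1 : |ip n z1| ≤ 2 * κ' * ρ * A) (hy2 : |ip n z2| ≤ 2 * κ' * A ^ 2)
    (hk1 : (C + 1) * (1 + Cf) * ρ ≤ κ / 2) (hk2 : 2 * κ' * (1 + Cf) * ρ ≤ κ / 2)
    (hk3 : 2 * κ' * (3 * Cf + 1) ≤ 1 / 4) :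
    ‖b1 + (f • z1 + f1 • z0) - b0‖ ≤ κ * A ∧
    ‖b2 + ((f • z2 + f1 • z1) + (f1 • z1 + f2 • z0))‖ ≤ (C + (3 * Cf + 1) * (C + 1)) * A ^ 2 ∧
    |ip n (b1 + (f • z1 + f1 • z0))| ≤ κ * A ∧
    ip n (b2 + ((f • z2 + f1 • z1) + (f1 • z1 + f2 • z0))) ≤ -(A ^ 2 / 2) := by
  have mb : ∀ {s t S T : ℝ}, |s| ≤ S → |t| ≤ T → |s * t| ≤ S * T := fun hs ht => by
    rw [abs_mul]; exact mul_le_mul hs ht (abs_nonneg _) ((abs_nonneg _).trans hs)
  have sb : ∀ {s S : ℝ} {x : V4} {T : ℝ}, |s| ≤ S → ‖x‖ ≤ T → ‖s • x‖ ≤ S * T := fun hs hx => by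
    rw [norm_smul, Real.norm_eq_abs]
    exact mul_le_mul hs hx (norm_nonneg _) ((abs_nonneg _).trans hs)
  refine ⟨?_, ?_, ?_, ?_⟩
  · rw [show b1 + (f • z1 + f1 • z0) - b0 = (b1 - b0) + (f • z1 + f1 • z0) by abel]
    refine (norm_add_le _ _).trans ((add_le_add hb1 ((norm_add_le _ _).trans
      (add_le_add (sb hf hz1) (sb hf1 hz0)))).trans ?_)
    rw [show Cf / ρ * A * ((C + 1) * ρ ^ 2) = (C + 1) * Cf * ρ * A by field_simp]
    nlinarith [mul_le_mul_of_nonneg_right hk1 hA]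
  · refine (norm_add_le _ _).trans ((add_le_add hb2 ((norm_add_le _ _).trans
      (add_le_add ((norm_add_le _ _).trans (add_le_add (sb hf hz2) (sb hf1 hz1)))
        ((norm_add_le _ _).trans (add_le_add (sb hf1 hz1) (sb hf2 hz0)))))).trans ?_)
    rw [show Cf / ρ * A * ((C + 1) * ρ * A) = (C + 1) * Cf * A ^ 2 by field_simp,
      show Cf / ρ ^ 2 * A ^ 2 * ((C + 1) * ρ ^ 2) = (C + 1) * Cf * A ^ 2 by field_simp]
    linarith
  · rw [Wave.ip_add_right, Wave.ip_add_right, Wave.ip_smul_right, Wave.ip_smul_right]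
    refine (abs_add_le _ _).trans ((add_le_add hn1 ((abs_add_le _ _).trans
      (add_le_add (mb hf hy1) (mb hf1 hy0)))).trans ?_)
    rw [show Cf / ρ * A * (2 * κ' * ρ ^ 2) = 2 * κ' * Cf * ρ * A by field_simp]
    nlinarith [mul_le_mul_of_nonneg_right hk2 hA]
  · simp only [Wave.ip_add_right, Wave.ip_smul_right]
    have a1 := (abs_le.1 (mb hf hy2)).2
    have a2 := (abs_le.1 (mb hf1 hy1)).2
    have a3 := (abs_le.1 (mb hf2 hy0)).2
    rw [show Cf / ρ * A * (2 * κ' * ρ * A) = 2 * κ' * Cf * A ^ 2 by field_simp] at a2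
    rw [show Cf / ρ ^ 2 * A ^ 2 * (2 * κ' * ρ ^ 2) = 2 * κ' * Cf * A ^ 2 by field_simp] at a3
    nlinarith [mul_le_mul_of_nonneg_right hk3 (sq_nonneg A)]

/-- **Blending.** -/
theorem blend_good {A B : R2 → V4} {R : ℝ} (h : Contact A B R) {η : ℝ} (hη : 0 < η) :
    ∃ R0, 0 < R0 ∧ R0 ≤ R ∧ R0 ≤ 1 ∧ ∀ ρ, 0 < ρ → ρ ≤ R0 → ∃ ε, 0 < ε ∧ ε ≤ 1 ∧
      ∀ W : R2 → V4, ContDiffOn ℝ ∞ W (ball 0 ρ) →
        (∀ i ≤ 2, ∀ u ∈ ball (0 : R2) (3 * ρ / 4),
          ‖iteratedFDeriv ℝ i (fun w => W w - A w) u‖ ≤ ε) →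
        ∀ u ∈ ball (0 : R2) R0, ContDiffAt ℝ ∞ (blend ρ W B) u ∧
          (∀ a, qf (met (blend ρ W B) u) a a ≤ (1 + η) * ‖a‖ ^ 2) ∧
          0 < area (blend ρ W B) u ∧ ∀ a : R2, a ≠ 0 → sff (blend ρ W B) u a a ≠ 0 := by
  obtain ⟨C, hC0, hrad⟩ := h.exists_radius
  obtain ⟨Cf, hCf1, hCf⟩ := exists_fade_bound
  set C' := C + (3 * Cf + 1) * (C + 1) with hC'
  have hC'0 : 0 < C' := by positivity
  set κ := min (min (η / 12) (1 / 24)) (1 / (7 * C')) with hκdef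
  have hκ0 : 0 < κ := by positivity
  have hκη : κ ≤ η / 12 := (min_le_left _ _).trans (min_le_left _ _)
  have hκ24 : κ ≤ 1 / 24 := (min_le_left _ _).trans (min_le_right _ _)
  have hκC : 6 * C' * κ < 1 := by
    have : κ ≤ 1 / (7 * C') := min_le_right _ _
    rw [le_div_iff₀ (by positivity)] at this
    nlinarith
  set κ' := κ / (10 * (3 * Cf + 1)) with hκ'
  have hκ'0 : 0 < κ' := by positivity
  have hk : κ' * (10 * (3 * Cf + 1)) = κ := div_mul_cancel₀ _ (by positivity)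
  obtain ⟨R1, hR1, hR1R, hJ⟩ := hrad (κ / 2) κ' (by positivity) hκ'0
  set R0 := min R1 (min 1 (κ / (2 * (C + 1) * (1 + Cf)))) with hR0
  have hR0a : R0 ≤ R1 := min_le_left _ _
  have hR0c : R0 ≤ 1 := (min_le_right _ _).trans (min_le_left _ _)
  have hR0d : R0 ≤ κ / (2 * (C + 1) * (1 + Cf)) := (min_le_right _ _).trans (min_le_right _ _)
  refine ⟨R0, by positivity, hR0a.trans hR1R, hR0c, fun ρ hρ hρR => ?_⟩
  set N := ‖ipL (B 0)‖
  have hN0 : 0 ≤ N := norm_nonneg _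
  set ε := min (ρ ^ 2) (κ' * ρ ^ 2 / (N + 1)) with hε
  have hρ1 : ρ ≤ 1 := hρR.trans hR0c
  have hεN : N * ε ≤ κ' * ρ ^ 2 := by
    calc N * ε ≤ (N + 1) * (κ' * ρ ^ 2 / (N + 1)) :=
          mul_le_mul (by linarith) (min_le_right _ _) (by positivity) (by linarith)
      _ = κ' * ρ ^ 2 := mul_div_cancel₀ _ (by positivity)
  refine ⟨ε, by positivity, (min_le_left _ _).trans (pow_le_one₀ hρ.le hρ1),
    fun W hW hWA u hu => ?_⟩
  have hu1 : u ∈ ball (0 : R2) R := ball_subset_ball (hR0a.trans hR1R) hu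
  have hJu := hJ u (ball_subset_ball hR0a hu)
  suffices hs : ContDiffAt ℝ ∞ (blend ρ W B) u ∧ ∀ a,
      ‖D a (blend ρ W B) u - D a B 0‖ ≤ κ * ‖a‖ ∧
      ‖D a (D a (blend ρ W B)) u‖ ≤ C' * ‖a‖ ^ 2 ∧
      |ip (B 0) (D a (blend ρ W B) u)| ≤ κ * ‖a‖ ∧
      ip (B 0) (D a (D a (blend ρ W B)) u) ≤ -(‖a‖ ^ 2 / 2) by
    obtain ⟨hs, he⟩ := hs
    obtain ⟨g1, g2, g3⟩ := good_of_est (L := fderiv ℝ B 0) h.iso hκ24 hκC (fun a => (he a).1)
      (fun a => (he a).2.1) (fun a => (he a).2.2.1) fun a => (he a).2.2.2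
    refine ⟨hs, fun a => ?_, g2, g3⟩
    nlinarith [(abs_le.1 (g1 a)).2, mul_le_mul_of_nonneg_right hκη (sq_nonneg ‖a‖)]
  by_cases hin : ‖u‖ < 3 * ρ / 4
  swap
  · have e := blend_outer hρ W B (show 68 / 100 * ρ < ‖u‖ by linarith [not_lt.1 hin])
    refine ⟨(h.smoothB.contDiffAt (isOpen_ball.mem_nhds hu1)).congr_of_eventuallyEq e,
      fun a => ?_⟩
    have e1 : D a (blend ρ W B) u = D a B u := by simp only [D, e.fderiv_eq]
    have e2 : D a (D a (blend ρ W B)) u = D a (D a B) u := by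
      have : D a (blend ρ W B) =ᶠ[𝓝 u] D a B := by
        filter_upwards [e.fderiv (𝕜 := ℝ)] with w hw
        simp only [D, hw]
      show fderiv ℝ (D a (blend ρ W B)) u a = fderiv ℝ (D a B) u a
      rw [this.fderiv_eq]
    rw [e1, e2]
    have hCC : C ≤ C' := le_add_of_nonneg_right (by positivity)
    have hκ2 : κ / 2 * ‖a‖ ≤ κ * ‖a‖ :=
      mul_le_mul_of_nonneg_right (by linarith) (norm_nonneg a)
    refine ⟨(hJu.first a).trans hκ2, (hJu.size a).trans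
      (mul_le_mul_of_nonneg_right hCC (sq_nonneg _)), (hJu.norm1 a).trans hκ2, ?_⟩
    nlinarith [hJu.curv a, sq_nonneg ‖a‖]
  · have hsub : ball (0 : R2) (3 * ρ / 4) ⊆ ball (0 : R2) R1 :=
      ball_subset_ball (by linarith)
    have huS : u ∈ ball (0 : R2) (3 * ρ / 4) := mem_ball_zero_iff.2 hin
    have hSR : ball (0 : R2) (3 * ρ / 4) ⊆ ball (0 : R2) R :=
      hsub.trans (ball_subset_ball hR1R)
    have hBS := h.smoothB.mono hSR
    have hev : blend ρ W B =ᶠ[𝓝 u] fun w => B w + fade (ρ⁻¹ • w) • (W w - B w) := by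
      filter_upwards [isOpen_ball.mem_nhds huS] with w hw
      rw [blend, if_pos (mem_ball_zero_iff.1 hw)]
    have hφs : ContDiff ℝ ∞ fun w : R2 => fade (ρ⁻¹ • w) :=
      contDiff_fade.comp ((contDiff_id (E := R2)).const_smul ρ⁻¹)
    have hD := fun a => blend_D isOpen_ball hφs hBS
      ((hW.mono (ball_subset_ball (by linarith))).sub hBS) huS hev a
    refine ⟨(hD 0).1, fun a => ?_⟩
    obtain ⟨-, e1, e2⟩ := hD a
    obtain ⟨⟨z0, z1, z2⟩, y0, y1, y2⟩ := h.diff_est hρ hρ1 (hρR.trans (hR0a.trans hR1R)) hW hWA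
      (fun w hw => hJ w (hsub hw)) (min_le_left _ _) hεN huS a
    obtain ⟨p0, q1, q2⟩ := fade_est hCf hρ (show ‖u‖ ≤ ρ by linarith) a
    have hk1 : (C + 1) * (1 + Cf) * ρ ≤ κ / 2 := by
      have := hρR.trans hR0d
      rw [le_div_iff₀ (by positivity)] at this
      linarith
    have hk2 : 2 * κ' * (1 + Cf) * ρ ≤ κ / 2 := by
      nlinarith [mul_le_mul_of_nonneg_left hρ1 (show 0 ≤ 2 * κ' * (1 + Cf) by positivity),
        mul_nonneg hκ'0.le (show (0 : ℝ) ≤ Cf by linarith)]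
    have hk3 : 2 * κ' * (3 * Cf + 1) ≤ 1 / 4 := by nlinarith
    rw [e1, e2]
    exact combine_est (n := B 0) (b0 := D a B 0) hρ (norm_nonneg a) (hJu.first a)
      (hJu.norm1 a) (hJu.size a) (hJu.curv a) p0 q1 q2 z0 z1 z2 y0 y1 y2 hk1 hk2 hk3

end Vale.Agent.P205.Base
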