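import Vale.Agent.P205.Assembly.Base.Lift
import Vale.Agent.P205.Assembly.Adapted
import Vale.Agent.P205.Iter.Atlas

/-!
Pullback of the Euclidean metric as a tensor field; a chart at a point in which a metric is the
identity and an induced metric is diagonal at the centre.
-/

noncomputable section

open Set Real Filter Metric
open scoped ContDiff Manifold Topology

namespace Vale.Agent.P205.Base

open Wave (V4 ip D gram2)

variable {M : Type} [TopologicalSpace M] [ChartedSpace R2 M]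

/-- The pullback of the scalar product by a map. -/
def pullForm (X : M → V4) : MForm M := fun p =>
  let L : R2 →L[ℝ] V4 := mfderiv 𝓘(ℝ, R2) 𝓘(ℝ, V4) X p
  ∑ i : Fin 4, ((ContinuousLinearMap.proj i).comp L).smulRight
    ((ContinuousLinearMap.proj i).comp L)

theorem pullForm_apply (X : M → V4) (p : M) (v w : TangentSpace 𝓘(ℝ, R2) p) :
    pullForm X p v w =
      ip (mfderiv 𝓘(ℝ, R2) 𝓘(ℝ, V4) X p v) (mfderiv 𝓘(ℝ, R2) 𝓘(ℝ, V4) X p w) := by
  let L : R2 →L[ℝ] V4 := mfderiv 𝓘(ℝ, R2) 𝓘(ℝ, V4) X p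
  let v' : R2 := v
  let w' : R2 := w
  change (∑ i : Fin 4, ((ContinuousLinearMap.proj i).comp L).smulRight
    ((ContinuousLinearMap.proj i).comp L)) v' w' = ip (L v') (L w')
  simp [ip]

theorem D_comp_mfderiv {X : M → V4} {ψ : R2 → M} {z : R2}
    (hX : MDifferentiableAt 𝓘(ℝ, R2) 𝓘(ℝ, V4) X (ψ z))
    (hψ : MDifferentiableAt 𝓘(ℝ, R2) 𝓘(ℝ, R2) ψ z) (a : R2) :
    D a (fun w => X (ψ w)) z =
      mfderiv 𝓘(ℝ, R2) 𝓘(ℝ, V4) X (ψ z) (mfderiv 𝓘(ℝ, R2) 𝓘(ℝ, R2) ψ z a) := by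
  have e : mfderiv 𝓘(ℝ, R2) 𝓘(ℝ, V4) (X ∘ ψ) z = fderiv ℝ (X ∘ ψ) z := mfderiv_eq_fderiv
  show fderiv ℝ (X ∘ ψ) z a = _
  rw [← e, mfderiv_comp z hX hψ]
  rfl

/-- The pullback has the induced metric as its components. -/
theorem chartForm_pullForm {X : M → V4} {ψ : R2 → M} {z : R2}
    (hX : MDifferentiableAt 𝓘(ℝ, R2) 𝓘(ℝ, V4) X (ψ z))
    (hψ : MDifferentiableAt 𝓘(ℝ, R2) 𝓘(ℝ, R2) ψ z) :
    chartForm (pullForm X) ψ z = met (fun w => X (ψ w)) z := by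
  simp only [chartForm, met, D_comp_mfderiv hX hψ, pullForm_apply]

/-- A map with a left inverse has injective differential. -/
theorem mfderiv_inj {ψ : R2 → M} {q : M → R2} {z : R2}
    (hψ : MDifferentiableAt 𝓘(ℝ, R2) 𝓘(ℝ, R2) ψ z)
    (hq : MDifferentiableAt 𝓘(ℝ, R2) 𝓘(ℝ, R2) q (ψ z))
    (he : (fun w => q (ψ w)) =ᶠ[𝓝 z] id) :
    Function.Injective (mfderiv 𝓘(ℝ, R2) 𝓘(ℝ, R2) ψ z) := by
  intro u v huv
  have h := mfderiv_comp z hq hψ
  rw [show q ∘ ψ = fun w => q (ψ w) from rfl, he.mfderiv_eq, mfderiv_id] at h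
  have hu := congrArg (fun L => L u) h
  have hv := congrArg (fun L => L v) h
  change u = mfderiv 𝓘(ℝ, R2) 𝓘(ℝ, R2) q (ψ z) (mfderiv 𝓘(ℝ, R2) 𝓘(ℝ, R2) ψ z u) at hu
  change v = mfderiv 𝓘(ℝ, R2) 𝓘(ℝ, R2) q (ψ z) (mfderiv 𝓘(ℝ, R2) 𝓘(ℝ, R2) ψ z v) at hv
  rw [hu, hv, huv]

theorem qf_chartForm (g : MForm M) {ψ : R2 → M} {z : R2} (hs : ∀ v w, g (ψ z) v w = g (ψ z) w v)
    (a b : R2) : qf (chartForm g ψ z) a b =
      g (ψ z) (mfderiv 𝓘(ℝ, R2) 𝓘(ℝ, R2) ψ z a) (mfderiv 𝓘(ℝ, R2) 𝓘(ℝ, R2) ψ z b) := by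
  let A : R2 →L[ℝ] R2 := mfderiv 𝓘(ℝ, R2) 𝓘(ℝ, R2) ψ z
  let B : R2 →L[ℝ] R2 →L[ℝ] ℝ := g (ψ z)
  change qf ![B (A (pt 1 0)) (A (pt 1 0)), B (A (pt 1 0)) (A (pt 0 1)),
    B (A (pt 0 1)) (A (pt 0 1))] a b = B (A a) (A b)
  conv_rhs => rw [Legal.coord_pt a, Legal.coord_pt b]
  simp only [map_add, map_smul, add_apply, smul_apply, smul_eq_mul]
  have hsw : B (A (pt 0 1)) (A (pt 1 0)) = B (A (pt 1 0)) (A (pt 0 1)) := hs _ _
  rw [hsw]
  simp only [qf, Matrix.cons_val_zero, Matrix.cons_val_one, Matrix.cons_val_two,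
    Matrix.tail_cons, Matrix.head_cons]
  ring

theorem qf_comb (T : Sym2) (u w : R2) (α β γ δ : ℝ) :
    qf T (α • u + β • w) (γ • u + δ • w) =
      α * γ * qf T u u + (α * δ + β * γ) * qf T u w + β * δ * qf T w w := by
  simp [qf]
  ring

/-- Two positive forms have a common orthogonal frame, orthonormal for the first. -/
theorem exists_common_frame (T S : Sym2) (hT : ∀ a : R2, a ≠ 0 → 0 < qf T a a)
    (hS : ∀ a : R2, a ≠ 0 → 0 < qf S a a) :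
    ∃ u w : R2, qf T u u = 1 ∧ qf T u w = 0 ∧ qf T w w = 1 ∧ qf S u w = 0 ∧
      0 < qf S u u ∧ 0 < qf S w w := by
  have h0 := hT (pt 1 0) fun e => by simpa [pt0] using congrArg (fun v : R2 => v 0) e
  simp [qf, pt0, pt1] at h0
  have hw := hT (pt (-(T 1 / T 0)) 1) fun e => by
    simpa [pt1] using congrArg (fun v : R2 => v 1) e
  have ek : qf T (pt (-(T 1 / T 0)) 1) (pt (-(T 1 / T 0)) 1) = T 2 - T 1 ^ 2 / T 0 := by
    simp [qf, pt0, pt1]
    field_simp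
    ring
  rw [ek] at hw
  set k := T 2 - T 1 ^ 2 / T 0 with hk
  set u₀ := (√(T 0))⁻¹ • pt 1 0 with hu₀
  set w₀ := (√k)⁻¹ • pt (-(T 1 / T 0)) 1 with hw₀
  have ha := Real.mul_self_sqrt h0.le
  have hb := Real.mul_self_sqrt hw.le
  have sa : 0 < √(T 0) := Real.sqrt_pos.2 h0
  have sb : 0 < √k := Real.sqrt_pos.2 hw
  have e1 : qf T u₀ u₀ = 1 := by
    simp [hu₀, qf, pt0, pt1]
    field_simp
    nlinarith
  have e2 : qf T u₀ w₀ = 0 := by
    simp [hu₀, hw₀, qf, pt0, pt1]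
    field_simp
    ring
  have e3 : qf T w₀ w₀ = 1 := by
    have h := qf_comb T (pt (-(T 1 / T 0)) 1) 0 (√k)⁻¹ 0 (√k)⁻¹ 0
    simp only [zero_smul, add_zero] at h
    rw [hw₀, h, ek]
    field_simp
    linarith
  set F : ℝ → ℝ := fun θ => qf S (cos θ • u₀ + sin θ • w₀) ((-sin θ) • u₀ + cos θ • w₀) with hF
  have hFc : Continuous F := by
    simp only [hF, qf_comb]
    fun_prop
  have hF0 : F 0 = qf S u₀ w₀ := by simp [hF]
  have hF1 : F (π / 2) = -qf S u₀ w₀ := by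
    simp only [hF, qf_comb, Real.cos_pi_div_two, Real.sin_pi_div_two]
    ring
  have hmem : (0 : ℝ) ∈ uIcc (F 0) (F (π / 2)) := by
    rw [hF0, hF1, Set.mem_uIcc]
    rcases le_total (qf S u₀ w₀) 0 with h | h
    · exact Or.inl ⟨h, by linarith⟩
    · exact Or.inr ⟨by linarith, h⟩
  obtain ⟨θ, -, hθ⟩ := intermediate_value_uIcc hFc.continuousOn hmem
  refine ⟨cos θ • u₀ + sin θ • w₀, (-sin θ) • u₀ + cos θ • w₀, ?_, ?_, ?_, hθ, ?_, ?_⟩
  · rw [qf_comb, e1, e2, e3]; linear_combination Real.sin_sq_add_cos_sq θ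
  · rw [qf_comb, e1, e2, e3]; ring
  · rw [qf_comb, e1, e2, e3]; linear_combination Real.sin_sq_add_cos_sq θ
  all_goals refine hS _ fun h => ?_
  · have := congrArg (fun v => qf T v v) h
    rw [show qf T 0 0 = 0 by simp [qf], qf_comb, e1, e2, e3] at this
    nlinarith [Real.sin_sq_add_cos_sq θ]
  · have := congrArg (fun v => qf T v v) h
    rw [show qf T 0 0 = 0 by simp [qf], qf_comb, e1, e2, e3] at this
    nlinarith [Real.sin_sq_add_cos_sq θ]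

/-- A parametrised disc with inverse. -/
structure Chart0 (M : Type) [TopologicalSpace M] [ChartedSpace R2 M] where
  /-- The parametrisation. -/
  ψ : R2 → M
  /-- Its inverse. -/
  q : M → R2
  /-- Its image. -/
  U : Set M
  /-- The radius. -/
  d : ℝ
  d_pos : 0 < d
  d_le : d ≤ 1
  U_open : IsOpen U
  ψ_smooth : ContMDiffOn 𝓘(ℝ, R2) 𝓘(ℝ, R2) ∞ ψ (ball 0 d)
  ψ_mem : MapsTo ψ (ball 0 d) U
  q_mem : MapsTo q U (ball 0 d)
  q_smooth : ContMDiffOn 𝓘(ℝ, R2) 𝓘(ℝ, R2) ∞ q U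
  q_ψ : ∀ z ∈ ball (0 : R2) d, q (ψ z) = z
  ψ_q : ∀ x ∈ U, ψ (q x) = x

theorem Chart0.mdiff_ψ (C : Chart0 M) {z : R2} (hz : z ∈ ball (0 : R2) C.d) :
    MDifferentiableAt 𝓘(ℝ, R2) 𝓘(ℝ, R2) C.ψ z :=
  (C.ψ_smooth.contMDiffAt (isOpen_ball.mem_nhds hz)).mdifferentiableAt (by simp)

theorem Chart0.mdiff_q (C : Chart0 M) {x : M} (hx : x ∈ C.U) :
    MDifferentiableAt 𝓘(ℝ, R2) 𝓘(ℝ, R2) C.q x :=
  (C.q_smooth.contMDiffAt (C.U_open.mem_nhds hx)).mdifferentiableAt (by simp)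

theorem Chart0.inj (C : Chart0 M) {z : R2} (hz : z ∈ ball (0 : R2) C.d) :
    Function.Injective (mfderiv 𝓘(ℝ, R2) 𝓘(ℝ, R2) C.ψ z) :=
  mfderiv_inj (C.mdiff_ψ hz) (C.mdiff_q (C.ψ_mem hz))
    (eventually_of_mem (isOpen_ball.mem_nhds hz) fun w hw => C.q_ψ w hw)

variable [IsManifold 𝓘(ℝ, R2) ∞ M] [T2Space M]

/-- A disc at a point in which `g` is the identity and the metric of `S` is diagonal. -/
theorem exists_chart0 (g : MForm M) (hsym : ∀ p v w, g p v w = g p w v)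
    (hpos : ∀ p v, v ≠ 0 → 0 < g p v v) {S : M → V4}
    (hS : ContMDiff 𝓘(ℝ, R2) 𝓘(ℝ, V4) ∞ S)
    (hSi : ∀ p, Function.Injective (mfderiv 𝓘(ℝ, R2) 𝓘(ℝ, V4) S p))
    (p : M) {V : Set M} (hV : V ∈ 𝓝 p) :
    ∃ C : Chart0 M, C.ψ 0 = p ∧ C.U ⊆ V ∧ chartForm g C.ψ 0 = ![1, 0, 1] ∧
      ∃ l₁ l₂ : ℝ, 0 < l₁ ∧ 0 < l₂ ∧
        met (fun z => S (C.ψ z)) 0 = ![l₁ ^ 2, 0, l₂ ^ 2] := by
  obtain ⟨ψ, q, U, hU, hpU, hq0, hψs, hψU, hqU, hqs, hqψ, hψq⟩ :=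
    Iter.exists_ball_chart (I := 𝓘(ℝ, R2)) (ContinuousLinearEquiv.refl ℝ R2) p
  have hψ0 : ψ 0 = p := hq0 ▸ hψq p hpU
  have h3 : (0 : R2) ∈ ball (0 : R2) 3 := mem_ball_self (by norm_num)
  have hdψ : MDifferentiableAt 𝓘(ℝ, R2) 𝓘(ℝ, R2) ψ 0 :=
    (hψs.contMDiffAt (isOpen_ball.mem_nhds h3)).mdifferentiableAt (by simp)
  have hinj := mfderiv_inj hdψ
    ((hqs.contMDiffAt (hU.mem_nhds (hψU h3))).mdifferentiableAt (by simp))
    (eventually_of_mem (isOpen_ball.mem_nhds h3) fun w hw => hqψ w hw)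
  have hT : ∀ a : R2, a ≠ 0 → 0 < qf (chartForm g ψ 0) a a := fun a ha => by
    rw [qf_chartForm g (fun v w => hsym _ v w)]
    exact hpos _ _ fun h => ha (hinj (h.trans (map_zero _).symm))
  have hS' : ∀ a : R2, a ≠ 0 → 0 < qf (met (fun z => S (ψ z)) 0) a a := fun a ha => by
    rw [qf_met, D_comp_mfderiv (hS.mdifferentiableAt (by simp)) hdψ]
    set v : V4 := mfderiv 𝓘(ℝ, R2) 𝓘(ℝ, V4) S (ψ 0) (mfderiv 𝓘(ℝ, R2) 𝓘(ℝ, R2) ψ 0 a) with hv
    have hv0 : v ≠ 0 := fun h => ha (hinj ((hSi _ ((hv ▸ h).trans (map_zero _).symm)).trans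
      (map_zero _).symm))
    obtain ⟨i, hi⟩ := Function.ne_iff.1 hv0
    exact lt_of_lt_of_le (mul_self_pos.2 hi) (Finset.single_le_sum
      (f := fun j => v j * v j) (fun j _ => mul_self_nonneg _) (Finset.mem_univ i))
  obtain ⟨u, w, huu, huw, hww, hSuw, hSuu, hSww⟩ := exists_common_frame _ _ hT hS'
  have hinj2 : Function.Injective (Adapted.lin u w : R2 →ₗ[ℝ] R2) := by
    rw [← LinearMap.ker_eq_bot, LinearMap.ker_eq_bot']
    intro z hz
    simp only [ContinuousLinearMap.coe_coe, Adapted.lin_apply] at hz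
    have h := congrArg (fun v => qf (chartForm g ψ 0) v v) hz
    rw [show qf (chartForm g ψ 0) (0 : R2) 0 = 0 by simp [qf], qf_comb, huu, huw, hww] at h
    ext i
    fin_cases i <;> simp <;> nlinarith [sq_nonneg (z 0), sq_nonneg (z 1)]
  let J : R2 ≃L[ℝ] R2 := (LinearEquiv.ofInjectiveEndo _ hinj2).toContinuousLinearEquiv
  have hJ : ∀ z, J z = z 0 • u + z 1 • w := fun z => Adapted.lin_apply u w z
  have hJ1 : J (pt 1 0) = u := by simp [hJ, pt0, pt1]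
  have hJ2 : J (pt 0 1) = w := by simp [hJ, pt0, pt1]
  have hc : ContinuousAt ψ (J 0) := by
    rw [map_zero]; exact hdψ.continuousAt
  have hev : ∀ᶠ z in 𝓝 (0 : R2), J z ∈ ball (0 : R2) 3 ∧ ψ (J z) ∈ V := by
    refine ((J.continuous.tendsto' 0 0 (map_zero J)).eventually (isOpen_ball.mem_nhds h3)).and ?_
    exact (hc.comp J.continuous.continuousAt).eventually (by simpa [hψ0] using hV)
  obtain ⟨d, hd, hdball⟩ := Metric.eventually_nhds_iff_ball.1 hev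
  have hd' : ∀ z ∈ ball (0 : R2) (min d 1), J z ∈ ball (0 : R2) 3 ∧ ψ (J z) ∈ V := fun z hz =>
    hdball z (ball_subset_ball (min_le_left _ _) hz)
  let C : Chart0 M :=
    { ψ := fun z => ψ (J z)
      q := fun x => J.symm (q x)
      U := U ∩ (fun x => J.symm (q x)) ⁻¹' ball 0 (min d 1)
      d := min d 1
      d_pos := lt_min hd one_pos
      d_le := min_le_right _ _
      U_open := (J.symm.continuous.comp_continuousOn hqs.continuousOn).isOpen_inter_preimage hU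
        isOpen_ball
      ψ_smooth := hψs.comp J.contDiff.contMDiff.contMDiffOn fun z hz => (hd' z hz).1
      ψ_mem := fun z hz => ⟨hψU (hd' z hz).1, by simpa [hqψ _ (hd' z hz).1] using hz⟩
      q_mem := fun x hx => hx.2
      q_smooth := J.symm.contDiff.contMDiff.comp_contMDiffOn (hqs.mono inter_subset_left)
      q_ψ := fun z hz => by simp [hqψ _ (hd' z hz).1]
      ψ_q := fun x hx => by simp [hψq x hx.1] }
  have hJd : DifferentiableAt ℝ (J : R2 → R2) 0 := J.differentiableAt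
  have hfJ : fderiv ℝ (J : R2 → R2) 0 = (J : R2 →L[ℝ] R2) := J.fderiv
  refine ⟨C, by simp [C, hψ0], fun x hx => ?_, ?_,
    √(qf (met (fun z => S (ψ z)) 0) u u), √(qf (met (fun z => S (ψ z)) 0) w w),
    Real.sqrt_pos.2 hSuu, Real.sqrt_pos.2 hSww, ?_⟩
  · have h := (hd' _ (C.q_mem hx)).2
    rwa [show ψ (J (J.symm (q x))) = x by simp [hψq x hx.1]] at h
  · show chartForm g (fun z => ψ (J z)) 0 = _
    rw [chartForm_comp g (ψ := ψ) (τ := J) (Eventually.of_forall fun _ => rfl)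
      (by rwa [map_zero]) hJd (fun v w => hsym _ v w), hfJ]
    simp [pullSym, hJ1, hJ2, huu, huw, hww]
  · show met ((fun z => S (ψ z)) ∘ J) 0 = _
    have hd0 : DifferentiableAt ℝ (fun z => S (ψ z)) (J 0) := by
      rw [map_zero]
      exact ((hS.contMDiffAt (x := ψ 0)).comp 0
        (hψs.contMDiffAt (isOpen_ball.mem_nhds h3))).contDiffAt.differentiableAt (by simp)
    rw [met_comp hd0 hJd, hfJ]
    simp [pullSym, hJ1, hJ2, hSuw, Real.sq_sqrt hSuu.le, Real.sq_sqrt hSww.le]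

end Vale.Agent.P205.Base
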