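import Vale.Agent.P205.Assembly.Base.Glue
import Vale.Agent.P205.Assembly.Flat
import Vale.Agent.P205.Interfaces

/-!
The starting map of a closed surface from the local starting maps near the marked points.
-/

noncomputable section

open Set Real Filter Metric
open scoped ContDiff Manifold Topology

namespace Vale.Agent.P205.Base

open Wave (V4 ip D gram2)

/-- The statement of the local module: a spherical immersion is changed near the origin into a
map whose deficit is `c • ring` times the metric in a small core and positive around it. -/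
def LocalProp : Prop :=
  ∀ ⦃d : ℝ⦄, 0 < d → d ≤ 1 → ∀ ⦃G : R2 → Sym2⦄, ContDiffOn ℝ ∞ G (ball 0 d) →
    G 0 = ![1, 0, 1] → ∀ ⦃S : R2 → V4⦄, ContDiffOn ℝ ∞ S (ball 0 d) →
    (∀ z ∈ ball (0 : R2) d, ip (S z) (S z) = 1) → (∀ z ∈ ball (0 : R2) d, 0 < area S z) →
    ∀ ⦃l₁ l₂ : ℝ⦄, 0 < l₁ → 0 < l₂ → met S 0 = ![l₁ ^ 2, 0, l₂ ^ 2] →
      ∃ s ρ c : ℝ, 0 < s ∧ s < d ∧ 0 < ρ ∧ 0 < c ∧ ∃ r0 > 0, ∀ r, 0 < r → r ≤ r0 →
        ∃ X : R2 → V4, ContDiffOn ℝ ∞ X (ball 0 d) ∧
          (∀ z ∈ ball (0 : R2) d, s ≤ ‖z‖ → X z = r • S z) ∧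
          (∀ z ∈ ball (0 : R2) d, 0 < area X z ∧ ∀ a : R2, a ≠ 0 → sff X z a a ≠ 0) ∧
          (∀ z : R2, ‖z‖ ≤ r * ρ / 3 →
            G z - met X z = (c * ring ((r * ρ)⁻¹ • z)) • G z) ∧
          (∀ z : R2, r * ρ / 3 ≤ ‖z‖ → ‖z‖ ≤ s → ∀ a : R2, a ≠ 0 →
            0 < qf (G z - met X z) a a)

/-- The bump of radii `1/3`, `2/5`. -/
def coreBump : ContDiffBump (0 : R2) := ⟨1 / 3, 2 / 5, by norm_num, by norm_num⟩

/-- The exponent of the cut-off in a scaled disc. -/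
def coreExp (t : R2) : ℝ := coreBump t * (2 * (‖t‖ ^ 2 - 1 / 16) - 1) + 1

theorem coreExp_smooth : ContDiff ℝ ∞ coreExp :=
  (coreBump.contDiff.mul ((contDiff_const.mul ((contDiff_norm_sq ℝ).sub contDiff_const)).sub
    contDiff_const)).add contDiff_const

theorem coreExp_in {t : R2} (h : ‖t‖ ≤ 1 / 3) : coreExp t = 2 * (‖t‖ ^ 2 - 1 / 16) := by
  rw [coreExp, coreBump.one_of_mem_closedBall (mem_closedBall_zero_iff.2 h)]
  ring

theorem coreExp_out {t : R2} (h : 2 / 5 ≤ ‖t‖) : coreExp t = 1 := by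
  rw [coreExp, coreBump.zero_of_le_dist (by simpa [coreBump] using h)]
  ring

theorem coreExp_pos {t : R2} (h : 1 / 3 ≤ ‖t‖) : 0 < coreExp t := by
  have h1 := coreBump.nonneg (x := t)
  have h2 := coreBump.le_one (x := t)
  have hx : (0 : ℝ) < ‖t‖ ^ 2 - 1 / 16 := by nlinarith
  rw [coreExp]
  rcases eq_or_lt_of_le h1 with h3 | h3
  · rw [← h3]; norm_num
  · nlinarith [mul_pos h3 hx]

theorem expNeg_double_sq (x : ℝ) : expNegInvGlue (2 * x) ^ 2 = expNegInvGlue x := by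
  rcases le_or_gt x 0 with hx | hx
  · rw [expNegInvGlue.zero_of_nonpos hx, expNegInvGlue.zero_of_nonpos (by linarith)]
    norm_num
  · simp only [expNegInvGlue, if_neg (not_le.2 hx), if_neg (not_le.2 (by linarith : 0 < 2 * x))]
    rw [sq, ← Real.exp_add]
    congr 1
    field_simp
    ring

theorem det_kernel {p q : R2} {x y : ℝ} (hd : p 0 * q 1 - p 1 * q 0 ≠ 0)
    (h0 : x * p 0 + y * q 0 = 0) (h1 : x * p 1 + y * q 1 = 0) : x = 0 ∧ y = 0 := by
  constructor
  · refine (mul_eq_zero.1 (?_ : (p 0 * q 1 - p 1 * q 0) * x = 0)).resolve_left hd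
    linear_combination q 1 * h0 - q 0 * h1
  · refine (mul_eq_zero.1 (?_ : (p 0 * q 1 - p 1 * q 0) * y = 0)).resolve_left hd
    linear_combination p 0 * h1 - p 1 * h0

variable {M : Type} [TopologicalSpace M] [ChartedSpace R2 M]

theorem chartForm_smul (c : ℝ) (g : MForm M) (ψ : R2 → M) (z : R2) :
    chartForm (fun p => c • g p) ψ z = c • chartForm g ψ z := by
  funext i; fin_cases i <;> rfl

theorem chartForm_eq_of_eq {g g' : MForm M} {ψ : R2 → M} {z : R2} (h : g (ψ z) = g' (ψ z)) :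
    chartForm g ψ z = chartForm g' ψ z := by
  simp only [chartForm, h]

theorem chartForm_sub (g g' : MForm M) (ψ : R2 → M) (z : R2) :
    chartForm (fun p => g p - g' p) ψ z = chartForm g ψ z - chartForm g' ψ z := by
  funext i; fin_cases i <;> rfl

variable [IsManifold 𝓘(ℝ, R2) ∞ M] [T2Space M]

/-- **Base, from the local statement.** -/
theorem base_of_local (hL : LocalProp) (𝒜 : Iter.Atlas (E := R2) (I := 𝓘(ℝ, R2)) (M := M))
    (g : MForm M) (hsym : ∀ p v w, g p v w = g p w v) (hpos : ∀ p v, v ≠ 0 → 0 < g p v v)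
    (hg : ∀ (U : Set R2) (ψ : R2 → M), IsOpen U → ContMDiffOn 𝓘(ℝ, R2) 𝓘(ℝ, R2) ∞ ψ U →
      ContDiffOn ℝ ∞ (chartForm g ψ) U)
    (F : M → EuclideanSpace ℝ (Fin 3))
    (hF : ContMDiff 𝓘(ℝ, R2) 𝓘(ℝ, EuclideanSpace ℝ (Fin 3)) ∞ F)
    (hFi : ∀ p, Function.Injective (mfderiv 𝓘(ℝ, R2) 𝓘(ℝ, EuclideanSpace ℝ (Fin 3)) F p))
    (P : Finset M) : BaseProp 𝒜 g P := by
  classical
  obtain ⟨S, hS, hSs, hSi⟩ := exists_lift F hF hFi
  have hSd : ∀ x, MDifferentiableAt 𝓘(ℝ, R2) 𝓘(ℝ, V4) S x := fun x =>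
    hS.mdifferentiableAt (by simp)
  obtain ⟨V, hV, hVdis⟩ := P.finite_toSet.t2_separation
  choose C hC0 hCV hCg l₁ l₂ hl₁ hl₂ hCS using fun k : {x // x ∈ P} =>
    exists_chart0 g hsym hpos hS hSi k.1 ((hV k.1).2.mem_nhds (hV k.1).1)
  have hdis : Pairwise fun k l => Disjoint (C k).U (C l).U := fun k l hkl =>
    (hVdis k.2 l.2 fun h => hkl (Subtype.ext h)).mono (hCV k) (hCV l)
  have hSψ : ∀ k, ContDiffOn ℝ ∞ (fun z => S ((C k).ψ z)) (ball 0 (C k).d) := fun k =>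
    (hS.comp_contMDiffOn (C k).ψ_smooth).contDiffOn
  have hSψa : ∀ k, ∀ z ∈ ball (0 : R2) (C k).d, 0 < area (fun w => S ((C k).ψ w)) z :=
    fun k z hz => area_pos fun a ha =>
      met_pos (hSd _) ((C k).mdiff_ψ hz) (hSi _) ((C k).inj hz) ha
  choose s ρ c hs0 hsd hρ hc r0 hr0 hX using fun k =>
    hL (C k).d_pos (C k).d_le (hg _ _ isOpen_ball (C k).ψ_smooth) (hCg k) (hSψ k)
      (fun z _ => hSs _) (hSψa k) (hl₁ k) (hl₂ k) (hCS k)
  obtain ⟨K, hK0, hK⟩ := exists_ratio 𝒜 g hsym hpos hg hS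
  obtain ⟨r, hr, hrr0, hrd, hrK⟩ : ∃ r : ℝ, 0 < r ∧ (∀ k, r ≤ r0 k) ∧
      (∀ k, r * ρ k < (C k).d) ∧ r ^ 2 * K < 1 := by
    have h1 : ∀ᶠ r in 𝓝[>] (0 : ℝ), ∀ k, r ≤ r0 k ∧ r * ρ k < (C k).d := eventually_all.2 fun k =>
      nhdsWithin_le_nhds ((eventually_le_nhds (hr0 k)).and
        ((continuous_id.mul continuous_const).tendsto' 0 0 (by simp) |>.eventually
          (eventually_lt_nhds (C k).d_pos)))
    have h2 : ∀ᶠ r in 𝓝[>] (0 : ℝ), r ^ 2 * K < 1 :=
      nhdsWithin_le_nhds (((continuous_pow 2).mul continuous_const).tendsto' 0 0 (by simp)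
        |>.eventually (eventually_lt_nhds one_pos))
    obtain ⟨r, ⟨ha, hb⟩, hr⟩ := ((h1.and h2).and self_mem_nhdsWithin).exists
    exact ⟨r, hr, fun k => (ha k).1, fun k => (ha k).2, hb⟩
  choose X hXs hXout hXgood hXcore hXpos using fun k => hX k r hr (hrr0 k)
  have hR : ∀ k, 0 < r * ρ k := fun k => mul_pos hr (hρ k)
  -- the map
  set f : M → V4 := fun x => r • S x with hf
  set Z : M → V4 := paste C f X with hZ
  have hfs : ContMDiff 𝓘(ℝ, R2) 𝓘(ℝ, V4) ∞ f :=
    (contDiff_id.const_smul r).contMDiff.comp hS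
  have hXo : ∀ k, ∀ z ∈ ball (0 : R2) (C k).d, s k ≤ ‖z‖ → X k z = f ((C k).ψ z) :=
    fun k z hz h => hXout k z hz h
  have hZs : ContMDiff 𝓘(ℝ, R2) 𝓘(ℝ, V4) ∞ Z := paste_smooth hdis hsd hfs hXs hXo
  have hZd : ∀ x, MDifferentiableAt 𝓘(ℝ, R2) 𝓘(ℝ, V4) Z x := fun x =>
    hZs.mdifferentiableAt (by simp)
  -- the cut-off
  set bk : {x // x ∈ P} → R2 → ℝ := fun k z => coreExp ((r * ρ k)⁻¹ • z) with hbk
  set b : M → ℝ := paste C (fun _ => (1 : ℝ)) bk with hb
  have hsb : ∀ k, r * ρ k * (2 / 5) < (C k).d := fun k => by linarith [hR k, hrd k]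
  have hbout : ∀ k, ∀ z ∈ ball (0 : R2) (C k).d, r * ρ k * (2 / 5) ≤ ‖z‖ → bk k z = 1 :=
    fun k z _ h => coreExp_out (by
      rw [norm_smul, norm_inv, Real.norm_of_nonneg (hR k).le, le_inv_mul_iff₀ (hR k)]
      exact h)
  have hbs : ContMDiff 𝓘(ℝ, R2) 𝓘(ℝ) ∞ b :=
    paste_smooth hdis hsb contMDiff_const
      (fun k => (coreExp_smooth.comp (contDiff_id.const_smul _)).contDiffOn) hbout
  set χ : M → ℝ := fun x => expNegInvGlue (b x) with hχ
  have hχs : ContMDiff 𝓘(ℝ, R2) 𝓘(ℝ) ∞ χ :=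
    (expNegInvGlue.contDiff (n := (⊤ : ℕ∞))).contMDiff.comp hbs
  set Core : {x // x ∈ P} → Set M := fun k => {x | x ∈ (C k).U ∧ ‖(C k).q x‖ < r * ρ k / 3}
    with hCore
  have hCoreo : ∀ k, IsOpen (Core k) := fun k =>
    ((C k).q_smooth.continuousOn.norm.isOpen_inter_preimage (C k).U_open isOpen_Iio)
  have hχcore : ∀ k, ∀ x ∈ Core k, χ x ^ 2 = ring ((r * ρ k)⁻¹ • (C k).q x) := by
    intro k x hx
    have ht : ‖(r * ρ k)⁻¹ • (C k).q x‖ ≤ 1 / 3 := by
      rw [norm_smul, norm_inv, Real.norm_of_nonneg (hR k).le, inv_mul_le_iff₀ (hR k)]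
      linarith [hx.2]
    simp only [hχ, hb, paste_of_mem hdis hx.1, hbk, coreExp_in ht, expNeg_double_sq, ring]
  have hχne : ∀ x, (∀ k, x ∉ Core k) → χ x ≠ 0 := by
    intro x hx
    refine (expNegInvGlue.pos_of_pos ?_).ne'
    by_cases h : ∃ k, x ∈ (C k).U
    · obtain ⟨k, hk⟩ := h
      rw [hb, paste_of_mem hdis hk]
      refine coreExp_pos ?_
      rw [norm_smul, norm_inv, Real.norm_of_nonneg (hR k).le, le_inv_mul_iff₀ (hR k)]
      have := not_lt.1 fun h => hx k ⟨hk, h⟩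
      linarith
    · rw [hb]
      simp [paste, Finset.sum_eq_zero fun k _ => if_neg fun hk => h ⟨k, hk⟩]
  -- the tensor
  set H : MForm M := fun x => if h : ∃ k, x ∈ Core k then c h.choose • g x
    else (χ x ^ 2)⁻¹ • (g x - pullForm Z x) with hH
  have hHcore : ∀ k, ∀ x ∈ Core k, H x = c k • g x := by
    intro k x hx
    have h : ∃ k, x ∈ Core k := ⟨k, hx⟩
    simp only [hH, dif_pos h]
    congr
    by_contra hne
    exact Set.disjoint_left.1 (hdis hne) h.choose_spec.1 hx.1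
  have hHout : ∀ x, (∀ k, x ∉ Core k) → H x = (χ x ^ 2)⁻¹ • (g x - pullForm Z x) := by
    intro x hx
    simp only [hH, dif_neg (not_exists.2 hx)]
  have hχflat : ∀ j, ∃ C2, Flat (closedBall 0 2) C2 1 fun z => χ (𝒜.par j z) := fun j =>
    flat_expNegInvGlue isOpen_ball (isCompact_closedBall 0 2)
      (closedBall_subset_ball (by norm_num)) ((hbs.comp_contMDiffOn (𝒜.par_smooth j)).contDiffOn)
  have hZU : ∀ j, ∀ z ∈ ball (0 : R2) 3, ∀ k, 𝒜.par j z ∈ (C k).U →
      (fun w => Z (𝒜.par j w)) =ᶠ[𝓝 z] (X k ∘ fun w => (C k).q (𝒜.par j w)) := by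
    intro j z hz k hk
    exact ((par_mdiff 𝒜 j hz).continuousAt.eventually ((C k).U_open.mem_nhds hk)).mono
      fun w hw => paste_of_mem hdis hw
  have hXd : ∀ k, ∀ z ∈ ball (0 : R2) (C k).d, ContDiffAt ℝ ∞ (X k) z := fun k z hz =>
    (hXs k).contDiffAt (isOpen_ball.mem_nhds hz)
  -- positivity
  have hdef : ∀ x, (∀ k, x ∉ Core k) → ∀ v, v ≠ 0 → pullForm Z x v v < g x v v := by
    intro x hx v hv
    rcases paste_cases hsd hXo x with ⟨k, hk, hks⟩ | h
    · have hz := (C k).q_mem hk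
      obtain ⟨z, hz', rfl⟩ : ∃ z, z = (C k).q x ∧ (C k).ψ z = x := ⟨_, rfl, (C k).ψ_q x hk⟩
      rw [← hz'] at hz hks
      have hcore : r * ρ k / 3 ≤ ‖z‖ :=
        not_lt.1 fun h => hx k ⟨hk, by rwa [← hz']⟩
      obtain ⟨a₀, rfl⟩ := surjective_mfderiv ((C k).inj hz) v
      obtain ⟨a, rfl⟩ : ∃ a : R2, a = a₀ := ⟨a₀, rfl⟩
      have ha : a ≠ 0 := fun h => hv (by rw [h]; exact map_zero _)
      have h1 := hXpos k z hcore hks a ha
      have e : (fun w => Z ((C k).ψ w)) =ᶠ[𝓝 z] X k :=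
        eventually_of_mem (isOpen_ball.mem_nhds hz) fun w hw => by
          show Z ((C k).ψ w) = _
          rw [hZ, paste_of_mem hdis ((C k).ψ_mem hw), (C k).q_ψ w hw]
      rw [qf_sub, ← met_congr e, ← chartForm_pullForm (hZd _) ((C k).mdiff_ψ hz),
        qf_chartForm g (fun v w => hsym _ v w),
        qf_chartForm (pullForm Z) (fun v w => pullForm_symm Z _ v w)] at h1
      linarith
    · have hm : ∀ w, mfderiv 𝓘(ℝ, R2) 𝓘(ℝ, V4) Z x w = r • mfderiv 𝓘(ℝ, R2) 𝓘(ℝ, V4) S x w :=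
        fun w => by
          rw [show mfderiv 𝓘(ℝ, R2) 𝓘(ℝ, V4) Z x = _ from h.mfderiv_eq,
            show f = r • S from rfl, const_smul_mfderiv (hSd x) r]
          rfl
      have h0 : pullForm Z x v v = r ^ 2 * pullForm S x v v := by
        rw [pullForm_apply, pullForm_apply, hm v]
        exact ((Wave.ip_smul_left _ _ _).trans
          (congrArg _ (Wave.ip_smul_right _ _ _))).trans (by ring)
      rw [h0]
      calc r ^ 2 * pullForm S x v v ≤ r ^ 2 * (K * g x v v) :=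
            mul_le_mul_of_nonneg_left (hK x v) (sq_nonneg r)
        _ = (r ^ 2 * K) * g x v v := by ring
        _ < g x v v := mul_lt_of_lt_one_left (hpos x v hv) hrK
  -- the equation
  have heq : ∀ j, ∀ z ∈ ball (0 : R2) 3, chartForm g (𝒜.par j) z =
      met (fun w => Z (𝒜.par j w)) z + χ (𝒜.par j z) ^ 2 • chartForm H (𝒜.par j) z := by
    intro j z hz
    by_cases hcore : ∃ k, 𝒜.par j z ∈ Core k
    · obtain ⟨k, hk⟩ := hcore
      obtain ⟨hτ, he, -⟩ := transition 𝒜 (C k) j hz hk.1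
      have hτz : (C k).q (𝒜.par j z) ∈ ball (0 : R2) (C k).d := (C k).q_mem hk.1
      have hτd : DifferentiableAt ℝ (fun w => (C k).q (𝒜.par j w)) z :=
        hτ.differentiableAt (by simp)
      rw [chartForm_eq_of_eq (g := H) (g' := fun p => c k • g p) (hHcore k _ hk), chartForm_smul,
        met_congr (hZU j z hz k hk.1),
        met_comp ((hXd k _ hτz).differentiableAt (by simp)) hτd,
        chartForm_comp g he ((C k).mdiff_ψ hτz) hτd (fun v w => hsym _ v w),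
        hχcore k _ hk, smul_smul]
      have h1 := hXcore k ((C k).q (𝒜.par j z)) (by linarith [hk.2])
      rw [sub_eq_iff_eq_add] at h1
      conv_lhs => rw [h1, pullSym_add, pullSym_smul]
      rw [mul_comm (c k), add_comm]
    · push Not at hcore
      have hne : χ (𝒜.par j z) ^ 2 ≠ 0 := pow_ne_zero 2 (hχne _ hcore)
      rw [chartForm_eq_of_eq (g := H)
        (g' := fun p => (χ (𝒜.par j z) ^ 2)⁻¹ • (g p - pullForm Z p)) (hHout _ hcore),
        chartForm_smul, chartForm_sub, smul_smul, mul_inv_cancel₀ hne, one_smul,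
        chartForm_pullForm (hZd _) (par_mdiff 𝒜 j hz), add_sub_cancel]
  refine ⟨Z, χ, H, hZs, hχs, fun p => expNegInvGlue.nonneg _, fun p hp => ?_, fun p v w => ?_,
    fun p _ v hv => ?_, hχflat, fun j => ⟨fun z hz => ?_, heq j, fun z hz => ?_⟩⟩
  · -- zero near the marked points
    obtain ⟨k, rfl⟩ : ∃ k : {x // x ∈ P}, p = k.1 := ⟨⟨p, hp⟩, rfl⟩
    have h0 : (0 : R2) ∈ ball (0 : R2) (C k).d := mem_ball_self (C k).d_pos
    have hk : (k.1 : M) ∈ (C k).U := hC0 k ▸ (C k).ψ_mem h0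
    have hq0 : (C k).q k.1 = 0 :=
      (congrArg (C k).q (hC0 k).symm).trans ((C k).q_ψ 0 h0)
    rw [notMem_tsupport_iff_eventuallyEq]
    have hnear : ∀ᶠ x in 𝓝 k.1, ‖(C k).q x‖ < r * ρ k / 4 :=
      ((C k).mdiff_q hk).continuousAt.norm.eventually
        (eventually_lt_nhds (by simp only [hq0, norm_zero]; linarith [hR k]))
    filter_upwards [hnear, (C k).U_open.mem_nhds hk] with x hx hxU
    have ht : ‖(r * ρ k)⁻¹ • (C k).q x‖ ≤ 1 / 4 := by
      rw [norm_smul, norm_inv, Real.norm_of_nonneg (hR _).le, inv_mul_le_iff₀ (hR _)]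
      linarith
    show expNegInvGlue (b x) = 0
    rw [hb, paste_of_mem hdis hxU]
    refine expNegInvGlue.zero_of_nonpos ?_
    simp only [hbk, coreExp_in (ht.trans (by norm_num))]
    nlinarith [norm_nonneg ((r * ρ k)⁻¹ • (C k).q x)]
  · -- symmetry
    by_cases h : ∃ k, p ∈ Core k
    · obtain ⟨k, hk⟩ := h
      rw [hHcore k p hk]
      simp [hsym p v w]
    · rw [hHout p (not_exists.1 h)]
      simp [hsym p v w, pullForm_symm Z p v w]
  · -- positivity
    by_cases h : ∃ k, p ∈ Core k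
    · obtain ⟨k, hk⟩ := h
      rw [hHcore k p hk]
      simpa using mul_pos (hc k) (hpos p v hv)
    · rw [hHout p (not_exists.1 h)]
      have h1 := hdef p (not_exists.1 h) v hv
      have h2 : 0 < (χ p ^ 2)⁻¹ :=
        inv_pos.2 (lt_of_le_of_ne (sq_nonneg _) (pow_ne_zero 2 (hχne p (not_exists.1 h))).symm)
      simpa using mul_pos h2 (sub_pos.2 h1)
  · -- smoothness of the tensor
    refine ContDiffAt.contDiffWithinAt ?_
    have hc0 := (par_mdiff 𝒜 j hz).continuousAt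
    have hgj : ContDiffAt ℝ ∞ (chartForm g (𝒜.par j)) z :=
      (hg _ _ isOpen_ball (𝒜.par_smooth j)).contDiffAt (isOpen_ball.mem_nhds hz)
    by_cases hcore : ∃ k, 𝒜.par j z ∈ Core k
    · obtain ⟨k, hk⟩ := hcore
      refine (hgj.const_smul (c k)).congr_of_eventuallyEq ?_
      filter_upwards [hc0.eventually ((hCoreo k).mem_nhds hk)] with w hw
      rw [chartForm_eq_of_eq (g := H) (g' := fun p => c k • g p) (hHcore k _ hw), chartForm_smul]
    · have hχj : ContDiffAt ℝ ∞ (fun w => χ (𝒜.par j w)) z :=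
        (hχs.comp_contMDiffOn (𝒜.par_smooth j)).contDiffOn.contDiffAt (isOpen_ball.mem_nhds hz)
      have hne : χ (𝒜.par j z) ≠ 0 := hχne _ (not_exists.1 hcore)
      have hmet : ContDiffAt ℝ ∞ (met fun w => Z (𝒜.par j w)) z :=
        (contDiffOn_met isOpen_ball (hZs.comp_contMDiffOn (𝒜.par_smooth j)).contDiffOn).contDiffAt
          (isOpen_ball.mem_nhds hz)
      refine (((hχj.pow 2).inv (pow_ne_zero 2 hne)).smul (hgj.sub hmet)).congr_of_eventuallyEq ?_
      filter_upwards [hχj.continuousAt.eventually_ne hne, isOpen_ball.mem_nhds hz] with w hw hwb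
      show chartForm H (𝒜.par j) w = (χ (𝒜.par j w) ^ 2)⁻¹ •
        (chartForm g (𝒜.par j) w - met (fun y => Z (𝒜.par j y)) w)
      rw [heq j w hwb, add_sub_cancel_left, smul_smul, inv_mul_cancel₀ (pow_ne_zero 2 hw),
        one_smul]
  · -- immersion and bending
    rcases paste_cases hsd hXo (𝒜.par j z) with ⟨k, hk, -⟩ | h
    · obtain ⟨hτ, -, hdet⟩ := transition 𝒜 (C k) j hz hk
      have hτz := (C k).q_mem hk
      have hτd : DifferentiableAt ℝ (fun w => (C k).q (𝒜.par j w)) z :=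
        hτ.differentiableAt (by simp)
      have hA := (hXgood k _ hτz).1
      refine ⟨?_, fun a ha => ?_⟩
      · rw [area_congr (hZU j z hz k hk), area_comp ((hXd k _ hτz).differentiableAt (by simp)) hτd]
        exact mul_pos (sq_pos_of_ne_zero hdet) hA
      · rw [sff_congr (hZU j z hz k hk), sff_comp ((hXd k _ hτz).of_le (by norm_cast))
          (hτ.of_le (by norm_cast)) hA.ne' hdet]
        refine (hXgood k _ hτz).2 _ fun h0 => hdet ?_
        simp only [det2]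
        have ha' : a = a 0 • pt 1 0 + a 1 • pt 0 1 := Legal.coord_pt a
        rw [ha', map_add, map_smul, map_smul] at h0
        have e0 := congrArg (fun v : R2 => v 0) h0
        have e1 := congrArg (fun v : R2 => v 1) h0
        simp at e0 e1
        by_contra hne
        refine ha ?_
        rcases det_kernel hne e0 e1 with ⟨h00, h11⟩
        rw [ha', h00, h11, zero_smul, zero_smul, add_zero]
    · have e : (fun w => Z (𝒜.par j w)) =ᶠ[𝓝 z] fun w => f (𝒜.par j w) :=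
        (par_mdiff 𝒜 j hz).continuousAt.eventually h
      have hfd : MDifferentiableAt 𝓘(ℝ, R2) 𝓘(ℝ, V4) f (𝒜.par j z) :=
        hfs.mdifferentiableAt (by simp)
      have hfi : Function.Injective (mfderiv 𝓘(ℝ, R2) 𝓘(ℝ, V4) f (𝒜.par j z)) := by
        intro u v huv
        refine hSi (𝒜.par j z) ?_
        rw [show f = r • S from rfl, const_smul_mfderiv (hSd _) r] at huv
        exact smul_right_injective V4 hr.ne' huv
      have hA : 0 < area (fun w => f (𝒜.par j w)) z :=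
        area_pos fun a ha => met_pos hfd (par_mdiff 𝒜 j hz) hfi (par_inj 𝒜 j hz) ha
      refine ⟨(area_congr e).symm ▸ hA, fun a ha => ?_⟩
      rw [sff_congr e]
      refine sff_ne_of_sphere (ρ := r ^ 2) ?_ (Eventually.of_forall fun w => ?_) hA ha
      · exact ((hfs.comp_contMDiffOn (𝒜.par_smooth j)).contDiffOn.contDiffAt
          (isOpen_ball.mem_nhds hz)).of_le (by norm_cast)
      · simp [hf, hSs, sq]

end Vale.Agent.P205.Base
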