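import Vale.Agent.P205.Assembly.Base.Charts
import Mathlib.Analysis.Calculus.BumpFunction.InnerProduct

/-!
Pasting maps given in finitely many disjoint discs; change of charts for germs; the uniform bound
of an induced metric by a metric on a compact surface.
-/

noncomputable section

open Set Real Filter Metric
open scoped ContDiff Manifold Topology

namespace Vale.Agent.P205.Base

open Wave (V4 ip D gram2)

variable {M : Type} [TopologicalSpace M] [ChartedSpace R2 M]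

section paste

variable {ι : Type} [Fintype ι] {V : Type} [NormedAddCommGroup V] [NormedSpace ℝ V]

open Classical in
/-- `f` changed to `fk` in the discs. -/
def paste (C : ι → Chart0 M) (f : M → V) (fk : ι → R2 → V) (x : M) : V :=
  f x + ∑ k, if x ∈ (C k).U then fk k ((C k).q x) - f x else 0

variable {C : ι → Chart0 M} {f : M → V} {fk : ι → R2 → V}

theorem paste_of_mem (hdis : Pairwise fun k l => Disjoint (C k).U (C l).U) {x : M} {k : ι}
    (hx : x ∈ (C k).U) : paste C f fk x = fk k ((C k).q x) := by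
  classical
  have h : ∀ l, l ≠ k → (if x ∈ (C l).U then fk l ((C l).q x) - f x else 0) = 0 := fun l hl =>
    if_neg fun hxl => Set.disjoint_left.1 (hdis hl) hxl hx
  rw [paste, Finset.sum_eq_single k (fun l _ hl => h l hl) (fun h => absurd (Finset.mem_univ k) h),
    if_pos hx]
  abel

theorem paste_ev_mem (hdis : Pairwise fun k l => Disjoint (C k).U (C l).U) {x : M} {k : ι}
    (hx : x ∈ (C k).U) : paste C f fk =ᶠ[𝓝 x] fun y => fk k ((C k).q y) :=
  eventually_of_mem ((C k).U_open.mem_nhds hx) fun _ hy => paste_of_mem hdis hy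

/-- Outside the inner discs the pasted map is the given one. -/
theorem paste_cases [T2Space M] {s : ι → ℝ} (hs : ∀ k, s k < (C k).d)
    (hf : ∀ k, ∀ z ∈ ball (0 : R2) (C k).d, s k ≤ ‖z‖ → fk k z = f ((C k).ψ z)) (x : M) :
    (∃ k, x ∈ (C k).U ∧ ‖(C k).q x‖ ≤ s k) ∨ paste C f fk =ᶠ[𝓝 x] f := by
  classical
  by_cases h : ∃ k, x ∈ (C k).U ∧ ‖(C k).q x‖ ≤ s k
  · exact Or.inl h
  refine Or.inr ?_
  push Not at h
  have hcl : ∀ k, IsClosed ((C k).ψ '' closedBall 0 (s k)) := fun k =>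
    ((isCompact_closedBall 0 (s k)).image_of_continuousOn
      ((C k).ψ_smooth.continuousOn.mono (closedBall_subset_ball (hs k)))).isClosed
  have hx : ∀ k, x ∈ ((C k).ψ '' closedBall 0 (s k))ᶜ := by
    rintro k ⟨z, hz, rfl⟩
    have hzb : z ∈ ball (0 : R2) (C k).d := closedBall_subset_ball (hs k) hz
    have := h k ((C k).ψ_mem hzb)
    rw [(C k).q_ψ z hzb] at this
    exact absurd (mem_closedBall_zero_iff.1 hz) (not_le.2 this)
  filter_upwards [eventually_all.2 fun k => (hcl k).isOpen_compl.mem_nhds (hx k)] with y hy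
  have h0 : ∀ k, (if y ∈ (C k).U then fk k ((C k).q y) - f y else 0) = 0 := fun k => by
    split_ifs with hyU
    · have hq := (C k).q_mem hyU
      have hns : s k ≤ ‖(C k).q y‖ := le_of_not_gt fun hlt =>
        hy k ⟨(C k).q y, mem_closedBall_zero_iff.2 hlt.le, (C k).ψ_q y hyU⟩
      rw [hf k _ hq hns, (C k).ψ_q y hyU, sub_self]
    · rfl
  simp [paste, Finset.sum_eq_zero fun k _ => h0 k]

theorem paste_smooth [T2Space M] (hdis : Pairwise fun k l => Disjoint (C k).U (C l).U)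
    {s : ι → ℝ} (hs : ∀ k, s k < (C k).d) (hf0 : ContMDiff 𝓘(ℝ, R2) 𝓘(ℝ, V) ∞ f)
    (hfs : ∀ k, ContDiffOn ℝ ∞ (fk k) (ball 0 (C k).d))
    (hf : ∀ k, ∀ z ∈ ball (0 : R2) (C k).d, s k ≤ ‖z‖ → fk k z = f ((C k).ψ z)) :
    ContMDiff 𝓘(ℝ, R2) 𝓘(ℝ, V) ∞ (paste C f fk) := by
  intro x
  rcases paste_cases hs hf x with ⟨k, hx, -⟩ | h
  · exact (((hfs k).contMDiffOn.comp (C k).q_smooth (C k).q_mem).contMDiffAt
      ((C k).U_open.mem_nhds hx)).congr_of_eventuallyEq (paste_ev_mem hdis hx)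
  · exact (hf0 x).congr_of_eventuallyEq h

end paste

section germ

theorem met_congr {X Y : R2 → V4} {z : R2} (h : X =ᶠ[𝓝 z] Y) : met X z = met Y z := by
  simp only [met, Legal.D_congr h]

theorem area_congr {X Y : R2 → V4} {z : R2} (h : X =ᶠ[𝓝 z] Y) : area X z = area Y z := by
  simp only [area, Legal.D_congr h]

theorem sff_congr {X Y : R2 → V4} {z : R2} (h : X =ᶠ[𝓝 z] Y) (a b : R2) :
    sff X z a b = sff Y z a b := by
  have h2 : D b X =ᶠ[𝓝 z] D b Y :=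
    (h.eventually_nhds).mono fun w hw => Legal.D_congr hw b
  simp only [sff, Legal.D_congr h, Legal.D_congr h2]

theorem det2_ne_of_injective {L : R2 →L[ℝ] R2} (h : Function.Injective L) : det2 L ≠ 0 := by
  intro hd
  set p := L (pt 1 0) with hp
  set q := L (pt 0 1) with hq
  have hd' : p 0 * q 1 - p 1 * q 0 = 0 := hd
  have key : ∀ x y : ℝ, x • p + y • q = 0 → x = 0 ∧ y = 0 := fun x y e => by
    have e2 : L (x • pt 1 0 + y • pt 0 1) = L 0 := by
      rw [map_add, map_smul, map_smul, map_zero, ← hp, ← hq, e]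
    have e3 := h e2
    exact ⟨by simpa [pt0] using congrArg (fun v : R2 => v 0) e3,
      by simpa [pt1] using congrArg (fun v : R2 => v 1) e3⟩
  have h1 := key (q 0) (-(p 0)) (by ext i; fin_cases i <;> simp <;> linarith)
  have h2 := key (q 1) (-(p 1)) (by ext i; fin_cases i <;> simp <;> linarith)
  have hp0 : (1 : ℝ) • p + (0 : ℝ) • q = 0 := by
    ext i; fin_cases i <;> simp <;> linarith [h1.2, h2.2]
  exact one_ne_zero (key 1 0 hp0).1

theorem surjective_mfderiv {ψ : R2 → M} {z : R2}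
    (h : Function.Injective (mfderiv 𝓘(ℝ, R2) 𝓘(ℝ, R2) ψ z)) :
    Function.Surjective (mfderiv 𝓘(ℝ, R2) 𝓘(ℝ, R2) ψ z) := by
  let A : R2 →L[ℝ] R2 := mfderiv 𝓘(ℝ, R2) 𝓘(ℝ, R2) ψ z
  have hA : Function.Injective (A : R2 →ₗ[ℝ] R2) := h
  have hsur := LinearMap.surjective_of_injective hA
  exact hsur

variable (𝒜 : Iter.Atlas (E := R2) (I := 𝓘(ℝ, R2)) (M := M))

theorem par_mdiff (j : 𝒜.ι) {z : R2} (hz : z ∈ ball (0 : R2) 3) :
    MDifferentiableAt 𝓘(ℝ, R2) 𝓘(ℝ, R2) (𝒜.par j) z :=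
  ((𝒜.par_smooth j).contMDiffAt (isOpen_ball.mem_nhds hz)).mdifferentiableAt (by simp)

theorem par_inj (j : 𝒜.ι) {z : R2} (hz : z ∈ ball (0 : R2) 3) :
    Function.Injective (mfderiv 𝓘(ℝ, R2) 𝓘(ℝ, R2) (𝒜.par j) z) :=
  mfderiv_inj (par_mdiff 𝒜 j hz)
    (((𝒜.inv_smooth j).contMDiffAt
      ((𝒜.src_open j).mem_nhds (𝒜.par_mem j hz))).mdifferentiableAt (by simp))
    (eventually_of_mem (isOpen_ball.mem_nhds hz) fun w hw => 𝒜.inv_par j w hw)

/-- The passage from an atlas parametrisation to a disc. -/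
theorem transition (C : Chart0 M) (j : 𝒜.ι) {z : R2} (hz : z ∈ ball (0 : R2) 3)
    (hx : 𝒜.par j z ∈ C.U) :
    ContDiffAt ℝ ∞ (fun w => C.q (𝒜.par j w)) z ∧
      𝒜.par j =ᶠ[𝓝 z] (fun w => C.ψ (C.q (𝒜.par j w))) ∧
      det2 (fderiv ℝ (fun w => C.q (𝒜.par j w)) z) ≠ 0 := by
  have hs : ContDiffAt ℝ ∞ (fun w => C.q (𝒜.par j w)) z :=
    ((C.q_smooth.contMDiffAt (C.U_open.mem_nhds hx)).comp z
      ((𝒜.par_smooth j).contMDiffAt (isOpen_ball.mem_nhds hz))).contDiffAt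
  have he : 𝒜.par j =ᶠ[𝓝 z] (fun w => C.ψ (C.q (𝒜.par j w))) :=
    ((par_mdiff 𝒜 j hz).continuousAt.eventually (C.U_open.mem_nhds hx)).mono
      fun w hw => (C.ψ_q _ hw).symm
  have hψz : C.ψ (C.q (𝒜.par j z)) = 𝒜.par j z := C.ψ_q _ hx
  have hσ : DifferentiableAt ℝ (fun y => 𝒜.inv j (C.ψ y)) (C.q (𝒜.par j z)) := by
    refine (ContMDiffAt.contDiffAt ?_).differentiableAt (n := ∞) (by simp)
    refine ContMDiffAt.comp _ ?_ (C.ψ_smooth.contMDiffAt (isOpen_ball.mem_nhds (C.q_mem hx)))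
    rw [hψz]
    exact (𝒜.inv_smooth j).contMDiffAt ((𝒜.src_open j).mem_nhds (𝒜.par_mem j hz))
  have hid : ((fun y => 𝒜.inv j (C.ψ y)) ∘ fun w => C.q (𝒜.par j w)) =ᶠ[𝓝 z] id := by
    filter_upwards [he, isOpen_ball.mem_nhds hz] with w hw hwb
    simp only [Function.comp_apply, id]
    rw [← hw, 𝒜.inv_par j w hwb]
  have hd : DifferentiableAt ℝ (fun w => C.q (𝒜.par j w)) z := hs.differentiableAt (by simp)
  have e := hid.fderiv_eq (𝕜 := ℝ)
  rw [fderiv_comp z hσ hd, fderiv_id] at e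
  refine ⟨hs, he, det2_ne_of_injective fun u v huv => ?_⟩
  have := congrArg (fderiv ℝ (fun y => 𝒜.inv j (C.ψ y)) (C.q (𝒜.par j z))) huv
  simpa [← ContinuousLinearMap.comp_apply, e] using this

end germ

theorem ip_self_pos {v : V4} (h : v ≠ 0) : 0 < ip v v := by
  obtain ⟨i, hi⟩ := Function.ne_iff.1 h
  exact lt_of_lt_of_le (mul_self_pos.2 hi) (Finset.single_le_sum
    (f := fun j => v j * v j) (fun j _ => mul_self_nonneg _) (Finset.mem_univ i))

/-- The induced metric of an immersion in a parametrisation is positive. -/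
theorem met_pos {X : M → V4} {ψ : R2 → M} {z : R2}
    (hX : MDifferentiableAt 𝓘(ℝ, R2) 𝓘(ℝ, V4) X (ψ z))
    (hψ : MDifferentiableAt 𝓘(ℝ, R2) 𝓘(ℝ, R2) ψ z)
    (hXi : Function.Injective (mfderiv 𝓘(ℝ, R2) 𝓘(ℝ, V4) X (ψ z)))
    (hψi : Function.Injective (mfderiv 𝓘(ℝ, R2) 𝓘(ℝ, R2) ψ z)) {a : R2} (ha : a ≠ 0) :
    0 < qf (met (fun w => X (ψ w)) z) a a := by
  rw [qf_met, D_comp_mfderiv hX hψ]
  refine ip_self_pos fun h => ha (hψi ?_)
  refine (hXi ((h : _).trans (map_zero _).symm)).trans (map_zero _).symm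

theorem qf_smul_self (T : Sym2) (c : ℝ) (a : R2) : qf T (c • a) (c • a) = c ^ 2 * qf T a a := by
  simp [qf]; ring

theorem qf_self_continuousOn {O : Set R2} {T : R2 → Sym2} (hT : ContinuousOn T O) :
    ContinuousOn (fun x : R2 × R2 => qf (T x.1) x.2 x.2) (O ×ˢ univ) := by
  have h : ∀ i : Fin 3, ContinuousOn (fun x : R2 × R2 => T x.1 i) (O ×ˢ univ) := fun i =>
    ((continuous_apply i).comp_continuousOn hT).comp continuousOn_fst fun _ hx => hx.1
  have ha : ∀ i : Fin 2, Continuous (fun x : R2 × R2 => x.2 i) := fun i =>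
    (EuclideanSpace.proj (𝕜 := ℝ) i).continuous.comp continuous_snd
  exact (((h 0).mul ((ha 0).mul (ha 0)).continuousOn).add
    ((h 1).mul (((ha 0).mul (ha 1)).add ((ha 1).mul (ha 0))).continuousOn)).add
      ((h 2).mul ((ha 1).mul (ha 1)).continuousOn)

theorem contDiffOn_met {O : Set R2} (hO : IsOpen O) {X : R2 → V4} (hX : ContDiffOn ℝ ∞ X O) :
    ContDiffOn ℝ ∞ (met X) O := by
  refine contDiffOn_pi.2 fun i => ?_
  fin_cases i <;>
    exact Wave.contDiffOn_ip (Wave.contDiffOn_D hO hX _) (Wave.contDiffOn_D hO hX _)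

theorem pullForm_symm (X : M → V4) (p : M) (v w : TangentSpace 𝓘(ℝ, R2) p) :
    pullForm X p v w = pullForm X p w v := by
  rw [pullForm_apply, pullForm_apply]
  exact Wave.ip_comm _ _

/-- The induced metric of a smooth map is bounded by a multiple of `g`. -/
theorem exists_ratio (𝒜 : Iter.Atlas (E := R2) (I := 𝓘(ℝ, R2)) (M := M)) (g : MForm M)
    (hsym : ∀ p v w, g p v w = g p w v) (hpos : ∀ p v, v ≠ 0 → 0 < g p v v)
    (hg : ∀ (U : Set R2) (ψ : R2 → M), IsOpen U → ContMDiffOn 𝓘(ℝ, R2) 𝓘(ℝ, R2) ∞ ψ U →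
      ContDiffOn ℝ ∞ (chartForm g ψ) U)
    {S : M → V4} (hS : ContMDiff 𝓘(ℝ, R2) 𝓘(ℝ, V4) ∞ S) :
    ∃ K : ℝ, 0 ≤ K ∧ ∀ p v, pullForm S p v v ≤ K * g p v v := by
  have hb : IsOpen (ball (0 : R2) 3) := isOpen_ball
  have hG : ∀ j, ∀ z ∈ ball (0 : R2) 3, ∀ a : R2, a ≠ 0 →
      0 < qf (chartForm g (𝒜.par j) z) a a := fun j z hz a ha => by
    rw [qf_chartForm g (fun v w => hsym _ v w)]
    exact hpos _ _ fun h => ha (par_inj 𝒜 j hz (h.trans (map_zero _).symm))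
  have hloc : ∀ j, ∃ K, ∀ z ∈ closedBall (0 : R2) 1, ∀ a ∈ sphere (0 : R2) 1,
      qf (met (fun w => S (𝒜.par j w)) z) a a ≤ K * qf (chartForm g (𝒜.par j) z) a a := by
    intro j
    have hsub : closedBall (0 : R2) 1 ×ˢ sphere (0 : R2) 1 ⊆ ball (0 : R2) 3 ×ˢ univ :=
      fun x hx => ⟨closedBall_subset_ball (by norm_num) hx.1, trivial⟩
    have c1 := (qf_self_continuousOn (contDiffOn_met hb
      (hS.comp_contMDiffOn (𝒜.par_smooth j)).contDiffOn).continuousOn).mono hsub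
    have c2 := (qf_self_continuousOn (hg _ _ hb (𝒜.par_smooth j)).continuousOn).mono hsub
    have hpos2 : ∀ x ∈ closedBall (0 : R2) 1 ×ˢ sphere (0 : R2) 1,
        0 < qf (chartForm g (𝒜.par j) x.1) x.2 x.2 := fun x hx =>
      hG j _ (closedBall_subset_ball (by norm_num) hx.1) _ (ne_of_mem_sphere hx.2 one_ne_zero)
    obtain ⟨K, hK⟩ := ((isCompact_closedBall (0 : R2) 1).prod
      (isCompact_sphere (0 : R2) 1)).exists_bound_of_continuousOn
      (c1.div c2 fun x hx => (hpos2 x hx).ne')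
    refine ⟨K, fun z hz a ha => ?_⟩
    have h := (le_abs_self _).trans (hK (z, a) ⟨hz, ha⟩)
    exact (div_le_iff₀ (hpos2 (z, a) ⟨hz, ha⟩)).1 h
  choose K hK using hloc
  refine ⟨∑ j, |K j|, Finset.sum_nonneg fun j _ => abs_nonneg _, fun p v => ?_⟩
  obtain ⟨j, -, hj⟩ := Finset.exists_ne_zero_of_sum_ne_zero
    (by rw [𝒜.weight_sum p]; exact one_ne_zero : (∑ j, 𝒜.weight j p) ≠ 0)
  have hw := 𝒜.weight_supp j (subset_tsupport _ hj)
  obtain ⟨z, hz, rfl⟩ : ∃ z ∈ ball (0 : R2) 1, 𝒜.par j z = p :=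
    ⟨_, hw.2, 𝒜.par_inv j p hw.1⟩
  have hz3 : z ∈ ball (0 : R2) 3 := ball_subset_ball (by norm_num) hz
  obtain ⟨a₀, rfl⟩ := surjective_mfderiv (par_inj 𝒜 j hz3) v
  obtain ⟨a, rfl⟩ : ∃ a : R2, a = a₀ := ⟨a₀, rfl⟩
  have hSd : MDifferentiableAt 𝓘(ℝ, R2) 𝓘(ℝ, V4) S (𝒜.par j z) :=
    hS.mdifferentiableAt (by simp)
  rw [← qf_chartForm (pullForm S) (ψ := 𝒜.par j) (fun v w => pullForm_symm S _ v w) a a,
    chartForm_pullForm hSd (par_mdiff 𝒜 j hz3), ← qf_chartForm g (fun v w => hsym _ v w) a a]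
  rcases eq_or_ne a 0 with rfl | ha
  · simp [qf]
  have hn : 0 < ‖a‖ := norm_pos_iff.2 ha
  have h := hK j z (ball_subset_closedBall hz) (‖a‖⁻¹ • a)
    (by simp [norm_smul, hn.ne'])
  rw [qf_smul_self, qf_smul_self, ← mul_assoc, mul_comm (K j) _, mul_assoc] at h
  refine (le_of_mul_le_mul_left h (by positivity)).trans ?_
  exact mul_le_mul_of_nonneg_right ((le_abs_self _).trans
    (Finset.single_le_sum (fun l _ => abs_nonneg (K l)) (Finset.mem_univ j))) (hG j z hz3 a ha).le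

end Vale.Agent.P205.Base
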