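import Vale.Agent.P205.Assembly.Change
import Mathlib.Geometry.Manifold.MFDeriv.SpecificFunctions

/-!
Immersions into a sphere bend in every direction; the lift of an immersion into three-space to
the unit sphere of four-space.
-/

noncomputable section

open Set Real Filter
open scoped ContDiff Manifold Topology

namespace Vale.Agent.P205.Base

open Wave (V4 ip D gram2)

theorem pt0 (a b : ℝ) : pt a b 0 = a := by simp [pt]

theorem pt1 (a b : ℝ) : pt a b 1 = b := by simp [pt]

/-- A positive induced quadratic form means positive area. -/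
theorem area_pos {X : R2 → V4} {z : R2} (h : ∀ a : R2, a ≠ 0 → 0 < qf (met X z) a a) :
    0 < area X z := by
  have h0 := h (pt 1 0) fun e => by simpa [pt0] using congrArg (fun w : R2 => w 0) e
  simp [qf, met, pt0, pt1] at h0
  set p := D (pt 1 0) X z with hp
  set q := D (pt 0 1) X z with hq
  have h1 := h (pt (ip p q) (-ip p p)) fun e => by
    have := congrArg (fun w : R2 => w 1) e
    simp [pt1] at this
    linarith
  simp [qf, met, pt0, pt1, ← hp, ← hq] at h1
  change 0 < gram2 p q
  unfold gram2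
  by_contra hn
  nlinarith [mul_nonpos_of_nonneg_of_nonpos (h0.le : 0 ≤ ip p p) (not_lt.1 hn)]

/-- An immersion into a sphere has a nonzero second form on every vector. -/
theorem sff_ne_of_sphere {X : R2 → V4} {z : R2} {ρ : ℝ} (hX : ContDiffAt ℝ 2 X z)
    (hs : ∀ᶠ w in 𝓝 z, ip (X w) (X w) = ρ) (hA : 0 < area X z) {a : R2} (ha : a ≠ 0) :
    sff X z a a ≠ 0 := by
  have hev : ∀ᶠ w in 𝓝 z, DifferentiableAt ℝ X w :=
    (hX.eventually (by simp)).mono fun w hw => hw.differentiableAt (by norm_num)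
  have h1 : ∀ b : R2, ∀ᶠ w in 𝓝 z, ip (X w) (D b X w) = 0 := fun b => by
    filter_upwards [hs.eventually_nhds, hev] with w hw hd
    have e := Legal.D_congr (f := fun y => ip (X y) (X y)) (g := fun _ => ρ) hw b
    rw [Legal.D_ip hd hd, Wave.ip_comm (D b X w) (X w)] at e
    simp [D] at e
    simp only [D]
    linarith
  have hd : DifferentiableAt ℝ (D a X) z :=
    (((hX.fderiv_right (m := 1) (by norm_num)).differentiableAt (by norm_num))).clm_apply
      (differentiableAt_const a)
  have h2 : ip (D a X z) (D a X z) + ip (X z) (D a (D a X) z) = 0 := by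
    have e := Legal.D_congr (f := fun y => ip (X y) (D a X y)) (g := fun _ => (0 : ℝ)) (h1 a) a
    rw [Legal.D_ip hev.self_of_nhds hd] at e
    simpa [D] using e
  intro h
  have hp : ip (X z) (D (pt 1 0) X z) = 0 := (h1 _).self_of_nhds
  have hq : ip (X z) (D (pt 0 1) X z) = 0 := (h1 _).self_of_nhds
  have e := Legal.ip_perp2 hp hq (D a (D a X) z)
  rw [show perp2 (D (pt 1 0) X z) (D (pt 0 1) X z) (D a (D a X) z) = 0 from h] at e
  rw [Wave.ip_zero_left, Wave.ip_comm] at e
  have hz : ip (D a X z) (D a X z) = 0 := by linarith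
  have hvec : D a X z = 0 := by
    funext i
    have := (Finset.sum_eq_zero_iff_of_nonneg fun j _ => mul_self_nonneg (D a X z j)).1
      (by simpa [ip] using hz) i (Finset.mem_univ i)
    simpa using this
  rw [D_coord] at hvec
  have hg : gram2 (D (pt 1 0) X z) (D (pt 0 1) X z) ≠ 0 := hA.ne'
  obtain ⟨i, hi⟩ : ∃ i : Fin 2, a i ≠ 0 := by
    by_contra hc
    push Not at hc
    exact ha (by ext i; simpa using hc i)
  refine hg ?_
  fin_cases i
  · have hi0 : a 0 ≠ 0 := hi
    have e0 : D (pt 1 0) X z = (-(a 1 / a 0)) • D (pt 0 1) X z := by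
      funext k
      have := congrFun hvec k
      simp at this ⊢
      field_simp
      linarith
    rw [e0]
    simp only [gram2, Wave.ip_smul_left, Wave.ip_smul_right]
    ring
  · have hi1 : a 1 ≠ 0 := hi
    have e0 : D (pt 0 1) X z = (-(a 0 / a 1)) • D (pt 1 0) X z := by
      funext k
      have := congrFun hvec k
      simp at this ⊢
      field_simp
      linarith
    rw [e0]
    simp only [gram2, Wave.ip_smul_left, Wave.ip_smul_right]
    ring

/-- The inverse stereographic projection. -/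
def stereo (x : EuclideanSpace ℝ (Fin 3)) : V4 :=
  (1 + (x 0 ^ 2 + x 1 ^ 2 + x 2 ^ 2))⁻¹ •
    ![2 * x 0, 2 * x 1, 2 * x 2, x 0 ^ 2 + x 1 ^ 2 + x 2 ^ 2 - 1]

theorem stereo_unit (x : EuclideanSpace ℝ (Fin 3)) : ip (stereo x) (stereo x) = 1 := by
  have h : (0 : ℝ) < 1 + (x 0 ^ 2 + x 1 ^ 2 + x 2 ^ 2) := by positivity
  simp [stereo, ip, Fin.sum_univ_four]
  field_simp
  ring

theorem contDiff_stereo : ContDiff ℝ ∞ stereo := by
  have hc : ∀ i : Fin 3, ContDiff ℝ ∞ fun x : EuclideanSpace ℝ (Fin 3) => x i := fun i =>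
    (EuclideanSpace.proj (𝕜 := ℝ) i).contDiff
  refine ((contDiff_const.add (((hc 0).pow 2 |>.add ((hc 1).pow 2)).add ((hc 2).pow 2))).inv
    fun x => ne_of_gt (by positivity)).smul (contDiff_pi.2 fun i => ?_)
  fin_cases i
  · exact contDiff_const.mul (hc 0)
  · exact contDiff_const.mul (hc 1)
  · exact contDiff_const.mul (hc 2)
  · exact ((((hc 0).pow 2).add ((hc 1).pow 2)).add ((hc 2).pow 2)).sub contDiff_const

theorem fderiv_stereo_inj (x : EuclideanSpace ℝ (Fin 3)) :
    Function.Injective (fderiv ℝ stereo x) := by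
  let prj : V4 → EuclideanSpace ℝ (Fin 3) := fun y =>
    WithLp.toLp 2 ![y 0 / (1 - y 3), y 1 / (1 - y 3), y 2 / (1 - y 3)]
  have h0 : ∀ y : EuclideanSpace ℝ (Fin 3), 0 < 1 + (y 0 ^ 2 + y 1 ^ 2 + y 2 ^ 2) :=
    fun y => by positivity
  have hprj : ∀ y, prj (stereo y) = y := fun y => by
    have := h0 y
    ext i
    fin_cases i <;> simp [prj, stereo] <;> field_simp <;> ring
  have hne : (1 : ℝ) - stereo x 3 ≠ 0 := by
    have := h0 x
    simp [stereo]
    field_simp
    linarith
  have hd : DifferentiableAt ℝ prj (stereo x) := by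
    have hc : ∀ j : Fin 4, DifferentiableAt ℝ (fun y : V4 => y j) (stereo x) := fun j =>
      differentiableAt_apply j _
    have hd3 : DifferentiableAt ℝ (fun y : V4 => 1 - y 3) (stereo x) :=
      (differentiableAt_const _).sub (hc 3)
    refine (differentiableAt_piLp 2).2 fun i => ?_
    fin_cases i
    · show DifferentiableAt ℝ (fun y : V4 => y 0 / (1 - y 3)) _
      simp only [div_eq_mul_inv]
      exact (hc 0).fun_mul (hd3.fun_inv hne)
    · show DifferentiableAt ℝ (fun y : V4 => y 1 / (1 - y 3)) _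
      simp only [div_eq_mul_inv]
      exact (hc 1).fun_mul (hd3.fun_inv hne)
    · show DifferentiableAt ℝ (fun y : V4 => y 2 / (1 - y 3)) _
      simp only [div_eq_mul_inv]
      exact (hc 2).fun_mul (hd3.fun_inv hne)
  have e : (fderiv ℝ prj (stereo x)).comp (fderiv ℝ stereo x) = ContinuousLinearMap.id ℝ _ := by
    rw [← fderiv_comp x hd (contDiff_stereo.differentiable (by simp) x), show prj ∘ stereo = id from
      funext hprj, fderiv_id]
  intro u v huv
  have := congrArg (fderiv ℝ prj (stereo x)) huv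
  simpa [← ContinuousLinearMap.comp_apply, e] using this

variable {M : Type} [TopologicalSpace M] [ChartedSpace R2 M]

/-- An immersion into three-space gives one into the unit sphere of four-space. -/
theorem exists_lift (F : M → EuclideanSpace ℝ (Fin 3))
    (hF : ContMDiff 𝓘(ℝ, R2) 𝓘(ℝ, EuclideanSpace ℝ (Fin 3)) ∞ F)
    (hFi : ∀ p, Function.Injective (mfderiv 𝓘(ℝ, R2) 𝓘(ℝ, EuclideanSpace ℝ (Fin 3)) F p)) :
    ∃ S : M → V4, ContMDiff 𝓘(ℝ, R2) 𝓘(ℝ, V4) ∞ S ∧ (∀ p, ip (S p) (S p) = 1) ∧
      ∀ p, Function.Injective (mfderiv 𝓘(ℝ, R2) 𝓘(ℝ, V4) S p) := by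
  refine ⟨stereo ∘ F, contDiff_stereo.contMDiff.comp hF, fun p => stereo_unit _, fun p => ?_⟩
  rw [mfderiv_comp p (contDiff_stereo.contMDiff.mdifferentiableAt (by simp))
    (hF.mdifferentiableAt (by simp)), mfderiv_eq_fderiv]
  exact (fderiv_stereo_inj (F p)).comp (hFi p)

end Vale.Agent.P205.Base
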