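import Vale.Agent.P205.Assembly.Base.Blend
import Vale.Agent.P205.Assembly.Base.Global
import Vale.Agent.P205.Assembly.Initial

/-!
The starting map near a marked point: a patch of the flat torus, turned onto the sphere map,
blended into it and pulled back by the radial profile.
-/

noncomputable section

open Set Real Filter Metric
open scoped ContDiff Topology

namespace Vale.Agent.P205.Base

open Wave (V4 ip D gram2)

/-! ### The rotation -/

/-- A fourth vector of an orthonormal frame. -/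
theorem exists_fourth {n p q : V4} (hn : ip n n = 1) (hp : ip p p = 1) (hq : ip q q = 1)
    (hnp : ip n p = 0) (hnq : ip n q = 0) (hpq : ip p q = 0) :
    ∃ ν, ip ν ν = 1 ∧ ip n ν = 0 ∧ ip p ν = 0 ∧ ip q ν = 0 := by
  obtain ⟨h1, h2, h3⟩ := Wave.ip_cross n p q
  refine ⟨Wave.cross n p q, ?_, h1, h2, h3⟩
  rw [Wave.ip_cross_self]
  simp [gram2, hn, hp, hq, hnp, hnq, hpq]

/-- The linear map of the frame of the torus at `0` to a given frame. -/
def rot (n p q ν : V4) : V4 →L[ℝ] V4 :=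
  (ipL ((1 / √2) • ![1, 0, 1, 0])).smulRight n + (ipL ![0, 1, 0, 0]).smulRight p +
    (ipL ![0, 0, 0, 1]).smulRight q + (ipL ((1 / √2) • ![1, 0, -1, 0])).smulRight ν

theorem inv_sqrt_two_sq : (1 / √2) * (1 / √2) = (1 / 2 : ℝ) := by
  rw [div_mul_div_comm, one_mul, Real.mul_self_sqrt (by norm_num)]

theorem rot_apply (n p q ν x : V4) : rot n p q ν x =
    (1 / √2 * (x 0 + x 2)) • n + x 1 • p + x 3 • q + (1 / √2 * (x 0 - x 2)) • ν := by
  simp [rot, ip, Fin.sum_univ_four, mul_add, sub_eq_add_neg]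

theorem ip_rot {n p q ν : V4} (hn : ip n n = 1) (hp : ip p p = 1) (hq : ip q q = 1)
    (hν : ip ν ν = 1) (hnp : ip n p = 0) (hnq : ip n q = 0) (hpq : ip p q = 0)
    (hnν : ip n ν = 0) (hpν : ip p ν = 0) (hqν : ip q ν = 0) (x y : V4) :
    ip (rot n p q ν x) (rot n p q ν y) = ip x y := by
  simp only [rot_apply, Wave.ip_add_left, Wave.ip_add_right, Wave.ip_smul_left,
    Wave.ip_smul_right, hn, hp, hq, hν, hnp, hnq, hpq, hnν, hpν, hqν, Wave.ip_comm p n,
    Wave.ip_comm q n, Wave.ip_comm q p, Wave.ip_comm ν n, Wave.ip_comm ν p, Wave.ip_comm ν q]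
  rw [show ip x y = x 0 * y 0 + x 1 * y 1 + x 2 * y 2 + x 3 * y 3 by simp [ip, Fin.sum_univ_four]]
  linear_combination (2 * (x 0 * y 0 + x 2 * y 2)) * inv_sqrt_two_sq

theorem met_rot {R : V4 →L[ℝ] V4} (hR : ∀ x y, ip (R x) (R y) = ip x y) {W : R2 → V4} {t : R2}
    (hW : DifferentiableAt ℝ W t) : met (fun w => R (W w)) t = met W t := by
  have h : ∀ a, D a (fun w => R (W w)) t = R (D a W t) := fun a => by
    simp only [D]
    rw [show (fun w => R (W w)) = R ∘ W from rfl, (R.hasFDerivAt.comp t hW.hasFDerivAt).fderiv]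
    rfl
  simp only [met, h, hR]

/-! ### The flat torus -/

theorem contDiff_flatTorus : ContDiff ℝ ∞ flatTorus := by
  have h : ∀ i : Fin 2, ContDiff ℝ ∞ fun z : R2 => √2 * z i :=
    fun i => contDiff_const.mul (EuclideanSpace.proj (𝕜 := ℝ) i).contDiff
  refine contDiff_pi.2 fun i => ?_
  fin_cases i <;> simp [flatTorus]
  exacts [contDiff_const.mul (h 0).cos, contDiff_const.mul (h 0).sin,
    contDiff_const.mul (h 1).cos, contDiff_const.mul (h 1).sin]

theorem ip_flatTorus (t : R2) : ip (flatTorus t) (flatTorus t) = 1 := by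
  simp only [flatTorus, Wave.ip_smul_left, Wave.ip_smul_right, ← mul_assoc, inv_sqrt_two_sq]
  simp [ip, Fin.sum_univ_four]
  linear_combination (1 / 2) * sin_sq_add_cos_sq (√2 * t 0) +
    (1 / 2) * sin_sq_add_cos_sq (√2 * t 1)

theorem flatTorus_jet : flatTorus 0 = (1 / √2) • ![1, 0, 1, 0] ∧
    D (pt 1 0) flatTorus 0 = ![0, 1, 0, 0] ∧ D (pt 0 1) flatTorus 0 = ![0, 0, 0, 1] := by
  have h : ∀ i : Fin 2, HasFDerivAt (fun z : R2 => √2 * z i)
      (√2 • (EuclideanSpace.proj (𝕜 := ℝ) i : R2 →L[ℝ] ℝ)) 0 :=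
    fun i => ((EuclideanSpace.proj (𝕜 := ℝ) i).hasFDerivAt).const_mul _
  have hL : HasFDerivAt flatTorus
      ((EuclideanSpace.proj (𝕜 := ℝ) (0 : Fin 2)).smulRight (![0, 1, 0, 0] : V4) +
        (EuclideanSpace.proj (𝕜 := ℝ) (1 : Fin 2)).smulRight (![0, 0, 0, 1] : V4)) 0 := by
    refine hasFDerivAt_pi'.2 fun i => ?_
    fin_cases i <;> simp only [flatTorus, Pi.smul_apply, smul_eq_mul]
    · exact ((h 0).cos.const_mul _).congr_fderiv (by ext a; simp)
    · exact ((h 0).sin.const_mul _).congr_fderiv (by ext a; simp)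
    · exact ((h 1).cos.const_mul _).congr_fderiv (by ext a; simp)
    · exact ((h 1).sin.const_mul _).congr_fderiv (by ext a; simp)
  refine ⟨by simp [flatTorus], ?_, ?_⟩ <;>
  · rw [D, hL.fderiv]
    funext i
    fin_cases i <;> simp [pt]

/-! ### Scaling and change of variable -/

/-- The germ of a scaled composition. -/
theorem germ_scale {X Y : R2 → V4} {τ : R2 → R2} {z : R2} {r : ℝ} (hr : r ≠ 0)
    (hY : ContDiffAt ℝ ∞ Y (τ z)) (hτ : ContDiffAt ℝ ∞ τ z) (hd : det2 (fderiv ℝ τ z) ≠ 0)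
    (h : X =ᶠ[𝓝 z] fun w => r • Y (τ w)) :
    (∀ a, qf (met X z) a a =
        r ^ 2 * qf (met Y (τ z)) (fderiv ℝ τ z a) (fderiv ℝ τ z a)) ∧
      met X z = r ^ 2 • pullSym (fderiv ℝ τ z) (met Y (τ z)) ∧
      area X z = r ^ 4 * (det2 (fderiv ℝ τ z) ^ 2 * area Y (τ z)) ∧
      (area Y (τ z) ≠ 0 → ∀ a,
        sff X z a a = r • sff Y (τ z) (fderiv ℝ τ z a) (fderiv ℝ τ z a)) := by
  have hY1 : DifferentiableAt ℝ Y (τ z) := hY.differentiableAt (by simp)
  have hτ1 : DifferentiableAt ℝ τ z := hτ.differentiableAt (by simp)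
  have hc : ContDiffAt ℝ 2 (fun w => Y (τ w)) z := (hY.comp z hτ).of_le two_le_top
  have hD : ∀ a, D a X z = r • D a (fun w => Y (τ w)) z := fun a => by
    rw [Legal.D_congr h]
    simp only [D]
    rw [fderiv_fun_const_smul (hc.differentiableAt (by norm_num)) r]
    rfl
  have hm : met X z = r ^ 2 • met (Y ∘ τ) z := by
    funext i
    fin_cases i <;> simp [met, hD, Function.comp_def] <;> ring
  refine ⟨fun a => ?_, by rw [hm, met_comp hY1 hτ1], ?_, fun hA a => ?_⟩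
  · rw [qf_met, qf_met, hD, Wave.ip_smul_left, Wave.ip_smul_right, ← fderiv_comp_apply hY1 hτ1]
    simp [Function.comp_def]
    ring
  · rw [← area_comp hY1 hτ1]
    simp [area, gram2, hD, Function.comp_def]
    ring
  · rw [sff_congr h, sff_smul hc hr, ← sff_comp (hY.of_le two_le_top) (hτ.of_le two_le_top) hA hd]
    rfl

theorem ring_le_one (t : R2) : ring t ≤ 1 := by
  rw [ring]
  unfold expNegInvGlue
  split_ifs with h
  · exact zero_le_one
  · exact Real.exp_le_one_iff.2 (neg_nonpos.2 (inv_nonneg.2 (not_le.1 h).le))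

theorem ring_nonneg (t : R2) : 0 ≤ ring t := expNegInvGlue.nonneg _

theorem ring_ge {t : R2} (h : 1 / 9 ≤ ‖t‖ ^ 2) : expNegInvGlue (1 / 9 - 1 / 16) ≤ ring t :=
  expNegInvGlue.monotone (by linarith)

/-- A tensor close to the identity near the origin. -/
theorem exists_near_id {G : R2 → Sym2} {d δ : ℝ} (hd : 0 < d) (hG : ContDiffOn ℝ ∞ G (ball 0 d))
    (hG0 : G 0 = ![1, 0, 1]) (hδ : 0 < δ) :
    ∃ δ' > 0, δ' ≤ d ∧ ∀ y : R2, ‖y‖ < δ' → ∀ a,
      |qf (G y) a a - ‖a‖ ^ 2| ≤ δ * ‖a‖ ^ 2 := by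
  have hc : Tendsto G (𝓝 0) (𝓝 (G 0)) :=
    hG.continuousOn.continuousAt (isOpen_ball.mem_nhds (mem_ball_self hd))
  obtain ⟨δ', hδ', h⟩ := Metric.eventually_nhds_iff.1
    ((tendsto_iff_norm_sub_tendsto_zero.1 hc).eventually (ge_mem_nhds (show 0 < δ / 3 by linarith)))
  refine ⟨min δ' d, lt_min hδ' hd, min_le_right _ _, fun y hy a => ?_⟩
  have hb := h (show dist y 0 < δ' by rw [dist_zero_right]; exact hy.trans_le (min_le_left _ _))
  have hi : ∀ i : Fin 3, |G y i - G 0 i| ≤ δ / 3 := fun i =>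
    (norm_le_pi_norm (G y - G 0) i).trans hb
  have e : qf (G y) a a - ‖a‖ ^ 2 = (G y 0 - G 0 0) * (a 0 * a 0) +
      (G y 1 - G 0 1) * (2 * (a 0 * a 1)) + (G y 2 - G 0 2) * (a 1 * a 1) := by
    rw [norm_sq_eq, hG0]
    simp [qf, nsq]
    ring
  have mb : ∀ {x b : ℝ} (i : Fin 3), |x| ≤ b → |(G y i - G 0 i) * x| ≤ δ / 3 * b := fun i hx => by
    rw [abs_mul]; exact mul_le_mul (hi i) hx (abs_nonneg _) (by linarith)
  have hn : nsq a = a 0 * a 0 + a 1 * a 1 := by simp [nsq, sq]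
  rw [e, norm_sq_eq, hn]
  refine (abs_add_three _ _ _).trans ((add_le_add (add_le_add
    (mb (b := a 0 * a 0 + a 1 * a 1) 0 ?_) (mb (b := a 0 * a 0 + a 1 * a 1) 1 ?_))
    (mb (b := a 0 * a 0 + a 1 * a 1) 2 ?_)).trans (le_of_eq (by ring)))
  · rw [abs_of_nonneg (mul_self_nonneg _)]; nlinarith
  · rw [abs_le]; constructor <;> nlinarith [sq_nonneg (a 0 - a 1), sq_nonneg (a 0 + a 1)]
  · rw [abs_of_nonneg (mul_self_nonneg _)]; nlinarith

/-- The ring is bounded below on the image of the middle zone. -/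
theorem ring_mid {r ρ : ℝ} (hr : 0 < r) (hρ : 0 < ρ) {z w : R2} (hz : r * ρ / 3 ≤ ‖z‖)
    (hn : nsq z ≤ (r * ρ) ^ 2 / 4) (hw : r • w = bb (nsq z / (r * ρ) ^ 2) • z) :
    expNegInvGlue (1 / 9 - 1 / 16) ≤ ring (ρ⁻¹ • w) := by
  have hX1 : 1 / 9 ≤ nsq z / (r * ρ) ^ 2 := by
    rw [le_div_iff₀ (by positivity), ← norm_sq_eq]
    have := pow_le_pow_left₀ (by positivity) hz 2
    linarith
  have hX2 : nsq z / (r * ρ) ^ 2 ≤ 1 / 4 := by
    rw [div_le_iff₀ (by positivity)]; linarith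
  refine ring_ge ((bb_sq_ge hX1 hX2).trans (le_of_eq ?_))
  have e : ρ⁻¹ • w = (bb (nsq z / (r * ρ) ^ 2) / (r * ρ)) • z := by
    rw [show w = r⁻¹ • (r • w) by rw [smul_smul, inv_mul_cancel₀ hr.ne', one_smul], hw,
      smul_smul, smul_smul]
    congr 1
    field_simp
  rw [e, norm_smul, Real.norm_eq_abs, mul_pow |bb (nsq z / (r * ρ) ^ 2) / (r * ρ)| ‖z‖ 2,
    sq_abs, norm_sq_eq]
  field_simp

theorem core_ineq {f T U A N x : ℝ} (hf : 0 ≤ f) (hfx : f ≤ 1 - x) (hT : T - N ≤ x / 3 * N)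
    (hN : N ≤ A) (hU : -(x / 3 * A) ≤ U - A) (hA : 0 < A) (hx : 0 < x) : f * T < U :=
  calc f * T ≤ f * ((1 + x / 3) * A) :=
        mul_le_mul_of_nonneg_left ((show T ≤ (1 + x / 3) * N by linarith).trans
          (mul_le_mul_of_nonneg_left hN (by linarith))) hf
    _ ≤ (1 - x) * ((1 + x / 3) * A) := mul_le_mul_of_nonneg_right hfx (by positivity)
    _ < U := by nlinarith [mul_pos hx hA, mul_pos (mul_pos hx hx) hA]

theorem contr_ineq {η T U v a b : ℝ} (hη : 0 < η) (hη1 : η < 1) (hv0 : 0 ≤ v)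
    (hT : T ≤ (1 + η) * v ^ 2) (hv : v ≤ b * a) (hb : b ≤ 1 - η)
    (hU : -(η / 2 * a ^ 2) ≤ U - a ^ 2) (ha : 0 < a) : T < U := by
  have hv2 : v ^ 2 ≤ (1 - η) ^ 2 * a ^ 2 := by
    rw [← mul_pow]
    exact pow_le_pow_left₀ hv0 (hv.trans (mul_le_mul_of_nonneg_right hb ha.le)) 2
  have ha2 := pow_pos ha 2
  nlinarith [mul_le_mul_of_nonneg_left hv2 (show 0 ≤ 1 + η by linarith), mul_pos hη ha2,
    mul_pos (mul_pos hη hη) (mul_pos (sub_pos.2 hη1) ha2)]

/-- The rotated torus touches the rescaled sphere map. -/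
theorem exists_contact {d : ℝ} (hd : 0 < d) {S : R2 → V4} (hS : ContDiffOn ℝ ∞ S (ball 0 d))
    (hsph : ∀ z ∈ ball (0 : R2) d, ip (S z) (S z) = 1) {l₁ l₂ : ℝ} (hl₁ : 0 < l₁) (hl₂ : 0 < l₂)
    (hm : met S 0 = ![l₁ ^ 2, 0, l₂ ^ 2]) :
    ∃ (R : V4 →L[ℝ] V4) (Rc : ℝ), (∀ x y, ip (R x) (R y) = ip x y) ∧
      Contact (fun t => R (flatTorus t)) (fun u => S (pt (u 0 / l₁) (u 1 / l₂))) Rc := by
  have h0 : (0 : R2) ∈ ball (0 : R2) d := mem_ball_self hd
  have hm0 : ip (D (pt 1 0) S 0) (D (pt 1 0) S 0) = l₁ ^ 2 := congrFun hm 0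
  have hm1 : ip (D (pt 1 0) S 0) (D (pt 0 1) S 0) = 0 := congrFun hm 1
  have hm2 : ip (D (pt 0 1) S 0) (D (pt 0 1) S 0) = l₂ ^ 2 := congrFun hm 2
  have hn0 := hsph 0 h0
  have hn1 := (sphere_jet isOpen_ball hS hsph h0 (pt 1 0)).1
  have hn2 := (sphere_jet isOpen_ball hS hsph h0 (pt 0 1)).1
  set p := l₁⁻¹ • D (pt 1 0) S 0 with hp
  set q := l₂⁻¹ • D (pt 0 1) S 0 with hq
  have hpp : ip p p = 1 := by simp [hp, hm0]; field_simp
  have hqq : ip q q = 1 := by simp [hq, hm2]; field_simp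
  have hpq : ip p q = 0 := by simp [hp, hq, hm1]
  have hnp : ip (S 0) p = 0 := by simp [hp, hn1]
  have hnq : ip (S 0) q = 0 := by simp [hq, hn2]
  obtain ⟨ν, hνν, hnν, hpν, hqν⟩ := exists_fourth hn0 hpp hqq hnp hnq hpq
  set R := rot (S 0) p q ν with hRdef
  have hR := ip_rot hn0 hpp hqq hνν hnp hnq hpq hnν hpν hqν
  obtain ⟨f0, f1, f2⟩ := flatTorus_jet
  have hfd : DifferentiableAt ℝ flatTorus 0 := contDiff_flatTorus.differentiable (by simp) 0
  set Rc := d * min l₁ l₂ with hRc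
  have hRc0 : 0 < Rc := mul_pos hd (lt_min hl₁ hl₂)
  set L : R2 →L[ℝ] R2 := ((EuclideanSpace.proj (𝕜 := ℝ) (0 : Fin 2)).smulRight (pt l₁⁻¹ 0)) +
    ((EuclideanSpace.proj (𝕜 := ℝ) (1 : Fin 2)).smulRight (pt 0 l₂⁻¹)) with hL
  have hLe : ∀ u : R2, L u = pt (u 0 / l₁) (u 1 / l₂) := fun u => by
    ext i; fin_cases i <;> simp [hL, pt, div_eq_mul_inv]
  have hmap : ∀ u ∈ ball (0 : R2) Rc, L u ∈ ball (0 : R2) d := fun u hu => by
    rw [mem_ball_zero_iff] at hu ⊢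
    have hmin : 0 < min l₁ l₂ := lt_min hl₁ hl₂
    refine lt_of_le_of_lt ?_ ((div_lt_iff₀ hmin).2 hu)
    refine (abs_le_of_sq_le_sq' ?_ (by positivity)).2
    rw [div_pow, norm_sq_eq, norm_sq_eq, hLe, le_div_iff₀ (by positivity)]
    have h1 : min l₁ l₂ ^ 2 ≤ l₁ ^ 2 := pow_le_pow_left₀ hmin.le (min_le_left _ _) 2
    have h2 : min l₁ l₂ ^ 2 ≤ l₂ ^ 2 := pow_le_pow_left₀ hmin.le (min_le_right _ _) 2
    simp only [nsq, pt]
    simp
    have e1 : (u 0 / l₁) ^ 2 * l₁ ^ 2 = u 0 ^ 2 := by field_simp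
    have e2 : (u 1 / l₂) ^ 2 * l₂ ^ 2 = u 1 ^ 2 := by field_simp
    nlinarith [mul_le_mul_of_nonneg_left h1 (sq_nonneg (u 0 / l₁)),
      mul_le_mul_of_nonneg_left h2 (sq_nonneg (u 1 / l₂))]
  set B : R2 → V4 := fun u => S (pt (u 0 / l₁) (u 1 / l₂)) with hB
  have hBL : B = S ∘ L := funext fun u => by simp [hB, hLe]
  have hSd : DifferentiableAt ℝ S (L 0) := by rw [map_zero]; exact diffAt_of_ball hS h0
  have hDB : ∀ a, D a B 0 = D (L a) S 0 := fun a => by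
    rw [hBL, fderiv_comp_apply hSd L.differentiableAt, L.fderiv, map_zero]
  have hB1 : D (pt 1 0) B 0 = p := by
    rw [hDB, hLe, D_coord S 0]; simp [pt, hp]
  have hB2 : D (pt 0 1) B 0 = q := by
    rw [hDB, hLe, D_coord S 0]; simp [pt, hq]
  have hA : ∀ a, D a (fun t => R (flatTorus t)) 0 = R (D a flatTorus 0) := fun a => by
    simp only [D]
    rw [show (fun t => R (flatTorus t)) = R ∘ flatTorus from rfl,
      (R.hasFDerivAt.comp (0 : R2) hfd.hasFDerivAt).fderiv]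
    rfl
  have hc2 : (√2)⁻¹ * (√2)⁻¹ = (1 / 2 : ℝ) := by rw [← one_div]; exact inv_sqrt_two_sq
  refine ⟨R, Rc, hR, ⟨hRc0, (R.contDiff.comp contDiff_flatTorus).contDiffOn, ?_,
    fun z _ => by rw [hR, ip_flatTorus], fun z hz => ?_, ?_, ?_, fun a => ?_⟩⟩
  · rw [hBL]
    exact hS.comp L.contDiff.contDiffOn hmap
  · show ip (B z) (B z) = 1
    rw [hBL]
    exact hsph _ (hmap z hz)
  · show R (flatTorus 0) = B 0
    rw [hBL, Function.comp_apply, map_zero, f0, hRdef, rot_apply]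
    simp
    rw [mul_add, hc2]
    norm_num
  · refine ContinuousLinearMap.ext fun a => ?_
    show D a (fun t => R (flatTorus t)) 0 = D a B 0
    have e1 : R ![0, 1, 0, 0] = p := by rw [hRdef, rot_apply]; simp
    have e2 : R ![0, 0, 0, 1] = q := by rw [hRdef, rot_apply]; simp
    rw [hA, D_coord flatTorus 0 a, D_coord B 0 a, hB1, hB2, f1, f2, map_add, map_smul, map_smul,
      e1, e2]
  · rw [D_coord B 0 a, hB1, hB2, norm_sq_eq]
    simp [hpp, hqq, hpq, Wave.ip_comm q p, nsq]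
    ring

/-- **The local starting map.** -/
theorem base_local
    (hP : ∀ G : R2 → Sym2, ContDiffOn ℝ ∞ G (ball 0 1) → G 0 = ![1, 0, 1] →
      ∀ ρ ε : ℝ, 0 < ρ → ρ ≤ 1 → 0 < ε → PatchProp G ρ ε) : LocalProp := by
  intro d hd hd1 G hG hG0 S hS hsph hArea l₁ l₂ hl₁ hl₂ hm
  -- the fixed data
  obtain ⟨R, Rc, hR, hcon⟩ := exists_contact hd hS hsph hl₁ hl₂ hm
  set B : R2 → V4 := fun u => S (pt (u 0 / l₁) (u 1 / l₂)) with hB
  set η := (1 - bb (1 / 4)) / 2 with hη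
  have hη0 : 0 < η := by have := bb_quarter_lt; rw [hη]; linarith
  have hη1 : η < 1 := by have := bb_pos (1 / 4); rw [hη]; linarith
  obtain ⟨R0, hR0, -, hR01, hblend⟩ := blend_good hcon hη0
  obtain ⟨C, hC1, hC⟩ := exists_dst_le
  set q : Fin 2 → ℝ := ![l₁, l₂] with hq
  set Q := max l₁ l₂ with hQ
  set lm := min l₁ l₂ with hlm
  have hlm0 : 0 < lm := lt_min hl₁ hl₂
  have hQ0 : 0 < Q := hl₁.trans_le (le_max_left _ _)
  have hqQ : ∀ i, 0 < q i ∧ q i ≤ Q ∧ lm ≤ q i := fun i => by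
    fin_cases i
    · exact ⟨hl₁, le_max_left _ _, min_le_left _ _⟩
    · exact ⟨hl₂, le_max_right _ _, min_le_right _ _⟩
  -- the two radii
  obtain ⟨δ₁, hδ₁, hδ₁d, hGσ⟩ := exists_near_id hd hG hG0 (half_pos hη0)
  set σ := min (δ₁ / 4) (R0 / (8 * Q)) with hσ
  have hσ0 : 0 < σ := by positivity
  have hσd : 2 * σ < d := by have := min_le_left (δ₁ / 4) (R0 / (8 * Q)); linarith
  have hσ1 : σ < δ₁ := by have := min_le_left (δ₁ / 4) (R0 / (8 * Q)); linarith
  have hσQ : Q * σ ≤ R0 / 8 := by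
    have := min_le_right (δ₁ / 4) (R0 / (8 * Q))
    rw [← hσ, le_div_iff₀ (by positivity)] at this
    linarith
  set ρ := min (R0 / 8) (lm * σ / (13 * C)) with hρ
  have hC0 : 0 < C := one_pos.trans_le hC1
  have hρ0 : 0 < ρ := by positivity
  have hρR : ρ ≤ R0 / 8 := min_le_left _ _
  have hρl : ρ * (13 * C) ≤ lm * σ := (le_div_iff₀ (by positivity)).1 (min_le_right _ _)
  have hρσ : ρ ≤ lm * σ := le_trans (le_mul_of_one_le_right hρ0.le (by linarith)) hρl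
  have hq2 : ∀ i, 12 * C * ρ < q i * σ := fun i => by
    have := mul_le_mul_of_nonneg_right (hqQ i).2.2 hσ0.le
    nlinarith [mul_pos hC0 hρ0]
  obtain ⟨ε₀, hε₀, -, hgood⟩ := hblend ρ hρ0 (by linarith)
  set ε := min 1 (ε₀ / (‖R‖ + 1)) with hε
  -- the patch
  have hG' : ContDiffOn ℝ ∞ (fun t => G (d • t)) (ball 0 1) := by
    refine hG.comp ((contDiff_id (E := R2)).const_smul d).contDiffOn fun t ht => ?_
    rw [mem_ball_zero_iff] at ht ⊢
    show ‖d • t‖ < d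
    rw [norm_smul, Real.norm_eq_abs, abs_of_pos hd]
    exact mul_lt_of_lt_one_right hd ht
  obtain ⟨c, hc, hcε, rP, hrP, hW⟩ :=
    hP (fun t => G (d • t)) hG' (by simpa using hG0) ρ ε hρ0 (by linarith) (by positivity)
  have hc1 : c ≤ 1 := hcε.trans (min_le_left _ _)
  set κ := expNegInvGlue (1 / 9 - 1 / 16) with hκ
  have hκ0 : 0 < κ := expNegInvGlue.pos_of_pos (by norm_num)
  obtain ⟨δ₂, hδ₂, -, hGδ⟩ := exists_near_id hd hG hG0 (show 0 < c * κ / 3 by positivity)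
  set K := 12 * C * ρ / σ + Q * (1 + 4 * C) with hK
  have hK0 : 0 < K := by positivity
  refine ⟨σ, ρ, c, hσ0, by linarith, hρ0, hc,
    min (min (d * rP) (σ / (2 * ρ))) (min (δ₂ / ρ) (η / K)), by positivity, fun r hr hrle => ?_⟩
  simp only [le_min_iff] at hrle
  obtain ⟨⟨hr1, hr2⟩, hr3, hr4⟩ := hrle
  rw [le_div_iff₀ (by positivity)] at hr2 hr3 hr4
  have h2 : 2 * (r * ρ) ≤ σ := by linarith
  have hrρ : 0 < r * ρ := mul_pos hr hρ0
  obtain ⟨W, hWs, hWmet, hWc⟩ := hW (r / d) (div_pos hr hd)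
    ((div_le_iff₀ hd).2 (hr1.trans (le_of_eq (mul_comm _ _))))
  set W' : R2 → V4 := fun t => R (W t) with hW'
  have hW's : ContDiffOn ℝ ∞ W' (ball 0 ρ) := R.contDiff.comp_contDiffOn hWs
  have hsmall : ball (0 : R2) (3 * ρ / 4) ⊆ ball 0 ρ := ball_subset_ball (by linarith)
  have hW'met : ∀ t ∈ ball (0 : R2) (3 * ρ / 4),
      met W' t = (1 - c * ring (ρ⁻¹ • t)) • G (r • t) := fun t ht => by
    rw [hW', met_rot hR (diffAt_of_ball hWs (hsmall ht)), hWmet t ht]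
    dsimp only
    rw [smul_smul, mul_div_cancel₀ _ hd.ne']
  have hW'c : ∀ i ≤ 2, ∀ t ∈ ball (0 : R2) (3 * ρ / 4),
      ‖iteratedFDeriv ℝ i (fun w => W' w - R (flatTorus w)) t‖ ≤ ε₀ := fun i hi t ht => by
    have e : (fun w => W' w - R (flatTorus w)) = R ∘ fun w => W w - flatTorus w :=
      funext fun w => by simp [hW']
    have hs : ContDiffAt ℝ ∞ (fun w => W w - flatTorus w) t :=
      (hWs.contDiffAt (isOpen_ball.mem_nhds (hsmall ht))).sub contDiff_flatTorus.contDiffAt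
    rw [e]
    refine (R.norm_iteratedFDeriv_comp_left hs (by exact_mod_cast le_top)).trans ?_
    calc ‖R‖ * _ ≤ (‖R‖ + 1) * (ε₀ / (‖R‖ + 1)) := by
          refine mul_le_mul (by linarith) ((hWc i hi t ht).trans (min_le_right _ _))
            (norm_nonneg _) (by positivity)
      _ = ε₀ := mul_div_cancel₀ _ (by positivity)
  set Φ := blend ρ W' B with hΦdef
  have hΦ := hgood W' hW's hW'c
  set ψ := radial q r ρ σ with hψdef
  have hψ : ∀ z, ContDiffAt ℝ ∞ ψ z := fun z => (contDiff_radial q r ρ σ).contDiffAt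
  have hdet : ∀ z, 0 < det2 (fderiv ℝ ψ z) := fun z =>
    det_radial_pos hC (fun i => (hqQ i).1) hr hρ0 hσ0 h2 hq2 z
  have hin : ∀ z : R2, ‖z‖ < 2 * σ → ψ z ∈ ball (0 : R2) R0 := fun z hz => by
    rw [mem_ball_zero_iff]
    have := radial_norm (σ := σ) (fun i => ⟨(hqQ i).1.le, (hqQ i).2.1⟩) hr hρ0 z
    have hm' := mul_lt_mul_of_pos_left hz hQ0
    linarith
  -- the map
  set X : R2 → V4 := fun z => if ‖z‖ < 2 * σ then r • Φ (ψ z) else r • S z with hXdef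
  have hfar : ∀ z : R2, σ ≤ ‖z‖ → Φ (ψ z) = S z := fun z hz => by
    rw [hψdef, radial_far hr hρ0 hσ0 h2 hz]
    have hn : ρ ≤ ‖pt (q 0 * z 0) (q 1 * z 1)‖ := by
      refine hρσ.trans ((mul_le_mul_of_nonneg_left hz hlm0.le).trans ?_)
      refine (abs_le_of_sq_le_sq' ?_ (norm_nonneg _)).2
      rw [mul_pow, norm_sq_eq, norm_sq_eq]
      have h0 : lm ^ 2 ≤ q 0 ^ 2 := pow_le_pow_left₀ hlm0.le (hqQ 0).2.2 2
      have h1 : lm ^ 2 ≤ q 1 ^ 2 := pow_le_pow_left₀ hlm0.le (hqQ 1).2.2 2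
      simp only [nsq, pt]
      simp
      nlinarith [mul_le_mul_of_nonneg_right h0 (sq_nonneg (z 0)),
        mul_le_mul_of_nonneg_right h1 (sq_nonneg (z 1))]
    rw [hΦdef, blend, if_neg (by linarith), hB]
    simp only
    congr 1
    ext i
    fin_cases i <;> simp [hq, pt] <;> field_simp
  have hout : ∀ z : R2, σ ≤ ‖z‖ → X z = r • S z := fun z hz => by
    rw [hXdef]
    simp only
    split_ifs with h
    · rw [hfar z hz]
    · rfl
  have hev1 : ∀ z : R2, ‖z‖ < 2 * σ → X =ᶠ[𝓝 z] fun w => r • Φ (ψ w) := fun z hz => by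
    filter_upwards [(isOpen_lt continuous_norm continuous_const).mem_nhds hz] with w hw
    exact if_pos hw
  have hev2 : ∀ z : R2, σ < ‖z‖ → X =ᶠ[𝓝 z] fun w => r • S w := fun z hz => by
    filter_upwards [(isOpen_lt continuous_const continuous_norm).mem_nhds hz] with w hw
    exact hout w (le_of_lt hw)
  have hΦat : ∀ z : R2, ‖z‖ < 2 * σ → ContDiffAt ℝ ∞ Φ (ψ z) := fun z hz => (hΦ _ (hin z hz)).1
  have hSat : ∀ z ∈ ball (0 : R2) d, ContDiffAt ℝ ∞ S z :=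
    fun z hz => hS.contDiffAt (isOpen_ball.mem_nhds hz)
  -- the metric in the small disc of the patch
  have hcore : ∀ z : R2, ‖z‖ ≤ r * ρ / 2 → ‖z‖ < 2 * σ ∧ ψ z ∈ ball (0 : R2) (3 * ρ / 4) ∧
      met Φ (ψ z) = met W' (ψ z) ∧ r • ψ z = bb (nsq z / (r * ρ) ^ 2) • z := fun z hz => by
    have hz' : ‖z‖ < 2 * σ := by linarith
    have hn : nsq z ≤ (r * ρ) ^ 2 / 4 := by
      rw [← norm_sq_eq]
      have := pow_le_pow_left₀ (norm_nonneg z) hz 2
      linarith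
    obtain ⟨e, -, -⟩ := radial_core (q := q) hr hρ0 hσ0 h2 hn
    have hsz : r • ψ z = bb (nsq z / (r * ρ) ^ 2) • z := by
      rw [hψdef, e, smul_smul, mul_div_cancel₀ _ hr.ne']
    have hb : ‖ψ z‖ ≤ ρ / 2 := by
      rw [hψdef, e, norm_smul, Real.norm_eq_abs,
        abs_of_pos (div_pos (bb_pos _) hr), div_mul_eq_mul_div, div_le_iff₀ hr]
      refine (mul_le_of_le_one_left (norm_nonneg z) (bb_le_one _)).trans ?_
      linarith
    refine ⟨hz', mem_ball_zero_iff.2 (by linarith), ?_, hsz⟩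
    exact met_congr (blend_inner hρ0 W' B (by linarith))
  refine ⟨X, fun z hz => ?_, fun z _ hz => hout z hz, fun z hz => ?_, fun z hz => ?_,
    fun z hz1 hz2 a ha => ?_⟩
  · refine ContDiffAt.contDiffWithinAt ?_
    by_cases h : ‖z‖ < 2 * σ
    · exact (((hΦat z h).comp z (hψ z)).const_smul r).congr_of_eventuallyEq (hev1 z h)
    · exact ((hSat z hz).const_smul r).congr_of_eventuallyEq
        (hev2 z (by linarith [not_lt.1 h]))
  · by_cases h : ‖z‖ < 2 * σ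
    · obtain ⟨-, -, hA, hB'⟩ := germ_scale hr.ne' (hΦat z h) (hψ z) (hdet z).ne' (hev1 z h)
      obtain ⟨-, -, hA0, hne⟩ := hΦ _ (hin z h)
      refine ⟨?_, fun a ha => ?_⟩
      · rw [hA]; exact mul_pos (pow_pos hr 4) (mul_pos (pow_pos (hdet z) 2) hA0)
      · rw [hB' hA0.ne']
        refine smul_ne_zero hr.ne' (hne _ fun h0 => ha ?_)
        have ha' : a = a 0 • pt 1 0 + a 1 • pt 0 1 := Legal.coord_pt a
        rw [ha', map_add, map_smul, map_smul] at h0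
        have e0 := congrArg (fun v : R2 => v 0) h0
        have e1 := congrArg (fun v : R2 => v 1) h0
        simp at e0 e1
        obtain ⟨h00, h11⟩ := det_kernel (show _ ≠ 0 from (hdet z).ne') e0 e1
        rw [ha', h00, h11, zero_smul, zero_smul, add_zero]
    · have e := hev2 z (by linarith [not_lt.1 h])
      have hA : area X z = r ^ 4 * area S z := by
        rw [area_congr e]
        simp only [area, gram2, D]
        rw [fderiv_fun_const_smul ((hSat z hz).differentiableAt (by simp)) r]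
        simp
        ring
      have hA0 : 0 < area X z := by rw [hA]; exact mul_pos (pow_pos hr 4) (hArea z hz)
      refine ⟨hA0, fun a ha => ?_⟩
      refine sff_ne_of_sphere (ρ := r ^ 2) ?_ ?_ hA0 ha
      · exact (((hSat z hz).const_smul r).congr_of_eventuallyEq e).of_le two_le_top
      · filter_upwards [e, isOpen_ball.mem_nhds hz] with w hw hwb
        rw [hw, Wave.ip_smul_left, Wave.ip_smul_right, hsph w hwb]
        ring
  · -- the equation in the core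
    obtain ⟨hz', hb, hmΦ, -⟩ := hcore z (by linarith)
    obtain ⟨-, hmX, -, -⟩ := germ_scale hr.ne' (hΦat z hz') (hψ z) (hdet z).ne' (hev1 z hz')
    have hn : nsq z ≤ (r * ρ) ^ 2 / 9 := by
      rw [← norm_sq_eq]
      have := pow_le_pow_left₀ (norm_nonneg z) hz 2
      linarith
    obtain ⟨e0, e1⟩ := radial_id (q := q) hr hρ0 hσ0 h2 hn
    have hb' : r⁻¹ • z ∈ ball (0 : R2) (3 * ρ / 4) := e0 ▸ hb
    rw [hmX, hmΦ, hψdef, e0, hW'met _ hb', smul_smul, smul_smul]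
    have hpull : ∀ T : Sym2, pullSym (fderiv ℝ (radial q r ρ σ) z) T = r⁻¹ ^ 2 • T := fun T => by
      funext i
      fin_cases i <;> simp [pullSym, e1, qf, pt] <;> ring
    rw [hpull, smul_smul, smul_smul, mul_inv_cancel₀ hr.ne', one_smul, mul_comm r ρ,
      mul_inv ρ r, show r ^ 2 * r⁻¹ ^ 2 = 1 by field_simp, one_mul, sub_smul, one_smul,
      sub_sub_cancel]
  · -- positivity
    rw [qf_sub, sub_pos]
    have ha2 : 0 < ‖a‖ ^ 2 := pow_pos (norm_pos_iff.2 ha) 2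
    have hzz : ‖z‖ < 2 * σ := by linarith
    obtain ⟨hqX, -, -, -⟩ := germ_scale hr.ne' (hΦat z hzz) (hψ z) (hdet z).ne' (hev1 z hzz)
    have hscale : ∀ T : Sym2, r ^ 2 * qf T (fderiv ℝ ψ z a) (fderiv ℝ ψ z a) =
        qf T (r • fderiv ℝ ψ z a) (r • fderiv ℝ ψ z a) := fun T => (qf_smul_self T r _).symm
    rw [hqX, hscale]
    set v := r • fderiv ℝ ψ z a with hv
    rcases le_or_gt (nsq z) ((r * ρ) ^ 2 / 4) with hn | hn
    · have hzn : ‖z‖ ≤ r * ρ / 2 := by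
        refine (abs_le_of_sq_le_sq' ?_ (by linarith)).2
        rw [norm_sq_eq]
        linarith
      obtain ⟨-, hb, hmΦ, hsz⟩ := hcore z hzn
      have hv1 : ‖v‖ ≤ ‖a‖ := radial_core_le hr hρ0 hσ0 h2 hn a
      rw [hmΦ, hW'met _ hb, qf_smul, hsz]
      set t := bb (nsq z / (r * ρ) ^ 2) • z
      have hzδ : ‖z‖ < δ₂ := by linarith
      have htz : ‖t‖ ≤ ‖z‖ := by
        rw [norm_smul, Real.norm_eq_abs, abs_of_pos (bb_pos _)]
        exact mul_le_of_le_one_left (norm_nonneg z) (bb_le_one _)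
      refine core_ineq (sub_nonneg.2 (mul_le_one₀ hc1 (ring_nonneg _) (ring_le_one _)))
        (sub_le_sub_left (mul_le_mul_of_nonneg_left (ring_mid hr hρ0 hz1 hn hsz) hc.le) 1)
        (abs_le.1 (hGδ t (htz.trans_lt hzδ) v)).2 (pow_le_pow_left₀ (norm_nonneg v) hv1 2)
        (abs_le.1 (hGδ z hzδ a)).1 ha2 (mul_pos hc hκ0)
    · exact contr_ineq hη0 hη1 (norm_nonneg v) ((hΦ _ (hin z hzz)).2.1 v)
        (radial_contr hC hC1 (fun i => (abs_of_pos (hqQ i).1).le.trans (hqQ i).2.1) hr hρ0 hσ0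
          hn.le a)
        (by linarith) (abs_le.1 (hGσ z (by linarith) a)).1 (norm_pos_iff.2 ha)

end Vale.Agent.P205.Base
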