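import Vale.Agent.P205.Assembly.Base.Global
import Vale.Agent.P205.Assembly.Base.Local

/-!
The starting map of a closed surface from the exact patch and an immersion into three-space.
-/

noncomputable section

open Set Metric
open scoped ContDiff Manifold

namespace Vale.Agent.P205

variable {M : Type} [TopologicalSpace M] [ChartedSpace R2 M] [IsManifold 𝓘(ℝ, R2) ∞ M] [T2Space M]

/-- **Base.** A starting map from the exact patch and an immersion into three-space. -/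
theorem exists_base
    (hP : ∀ G : R2 → Sym2, ContDiffOn ℝ ∞ G (ball 0 1) → G 0 = ![1, 0, 1] →
      ∀ ρ ε : ℝ, 0 < ρ → ρ ≤ 1 → 0 < ε → PatchProp G ρ ε)
    (F : M → EuclideanSpace ℝ (Fin 3))
    (hF : ContMDiff 𝓘(ℝ, R2) 𝓘(ℝ, EuclideanSpace ℝ (Fin 3)) ∞ F)
    (hFi : ∀ p, Function.Injective (mfderiv 𝓘(ℝ, R2) 𝓘(ℝ, EuclideanSpace ℝ (Fin 3)) F p))
    (𝒜 : Iter.Atlas (E := R2) (I := 𝓘(ℝ, R2)) (M := M)) (g : MForm M) (P : Finset M)
    (hsym : ∀ p v w, g p v w = g p w v) (hpos : ∀ p v, v ≠ 0 → 0 < g p v v)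
    (hg : ∀ (U : Set R2) (ψ : R2 → M), IsOpen U → ContMDiffOn 𝓘(ℝ, R2) 𝓘(ℝ, R2) ∞ ψ U →
      ContDiffOn ℝ ∞ (chartForm g ψ) U) : BaseProp 𝒜 g P :=
  Base.base_of_local (Base.base_local hP) 𝒜 g hsym hpos hg F hF hFi P

end Vale.Agent.P205
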