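import Vale.Agent.P205.Assembly.Change

/-!
The radial profile of the base: a map of the disc which is `z / r` near the centre, contracts in
the middle and is linear from radius `σ` on, with invertible derivative everywhere.
-/

noncomputable section

open Set Real Filter
open scoped ContDiff Topology

namespace Vale.Agent.P205.Base

/-- The squeeze before taking the root. -/
def sm (x : ℝ) : ℝ := x * expNegInvGlue (x - 1 / 9)

/-- Its derivative. -/
def dsm (x : ℝ) : ℝ :=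
  expNegInvGlue (x - 1 / 9) + x * ((x - 1 / 9)⁻¹ ^ 2 * expNegInvGlue (x - 1 / 9))

/-- The squeeze factor as a function of the squared radius. -/
def bb (x : ℝ) : ℝ := (Real.sqrt (1 + sm x))⁻¹

/-- Its derivative. -/
def dbb (x : ℝ) : ℝ := -dsm x / (2 * (1 + sm x)) * bb x

/-- The derivative of the smooth step. -/
def dst (x : ℝ) : ℝ := deriv Real.smoothTransition x

theorem hasDerivAt_glue (y : ℝ) :
    HasDerivAt expNegInvGlue (y⁻¹ ^ 2 * expNegInvGlue y) y := by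
  simpa using expNegInvGlue.hasDerivAt_polynomial_eval_inv_mul 1 y

theorem sm_nonneg (x : ℝ) : 0 ≤ sm x := by
  rcases le_or_gt x (1 / 9) with h | h
  · rw [sm, expNegInvGlue.zero_of_nonpos (sub_nonpos.2 h), mul_zero]
  · exact mul_nonneg (by linarith) (expNegInvGlue.nonneg _)

theorem dsm_nonneg (x : ℝ) : 0 ≤ dsm x := by
  rcases le_or_gt x (1 / 9) with h | h
  · rw [dsm, expNegInvGlue.zero_of_nonpos (sub_nonpos.2 h)]; simp
  · exact add_nonneg (expNegInvGlue.nonneg _)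
      (mul_nonneg (by linarith) (mul_nonneg (sq_nonneg _) (expNegInvGlue.nonneg _)))

theorem u_pos (x : ℝ) : 0 < 1 + sm x := by linarith [sm_nonneg x]

theorem bb_pos (x : ℝ) : 0 < bb x := inv_pos.2 (Real.sqrt_pos.2 (u_pos x))

theorem bb_sq (x : ℝ) : bb x ^ 2 = (1 + sm x)⁻¹ := by
  rw [bb, inv_pow, Real.sq_sqrt (u_pos x).le]

theorem bb_le_one (x : ℝ) : bb x ≤ 1 :=
  inv_le_one_of_one_le₀ (Real.one_le_sqrt.2 (by linarith [sm_nonneg x]))

theorem bb_one {x : ℝ} (h : x ≤ 1 / 9) : bb x = 1 ∧ dbb x = 0 := by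
  have e := expNegInvGlue.zero_of_nonpos (sub_nonpos.2 h)
  rw [dbb, bb, dsm, sm, e]; simp

theorem contDiff_bb : ContDiff ℝ ∞ bb := by
  refine ContDiff.inv (ContDiff.sqrt ?_ fun x => (u_pos x).ne') fun x =>
    (Real.sqrt_pos.2 (u_pos x)).ne'
  exact contDiff_const.add
    (contDiff_id.mul (expNegInvGlue.contDiff.comp (contDiff_id.sub contDiff_const)))

theorem hasDerivAt_bb (x : ℝ) : HasDerivAt bb (dbb x) x := by
  have h1 : HasDerivAt (fun t : ℝ => 1 + sm t) (dsm x) x := by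
    have h := ((hasDerivAt_id x).fun_mul
      ((hasDerivAt_glue (x - 1 / 9)).comp_sub_const x (1 / 9))).const_add 1
    simpa [sm, dsm] using h
  have h2 := (h1.sqrt (u_pos x).ne').fun_inv (Real.sqrt_pos.2 (u_pos x)).ne'
  refine h2.congr_deriv ?_
  have hs := Real.sqrt_pos.2 (u_pos x)
  rw [dbb, bb, Real.sq_sqrt (u_pos x).le]
  field_simp

theorem dbb_nonpos (x : ℝ) : dbb x ≤ 0 :=
  mul_nonpos_of_nonpos_of_nonneg
    (div_nonpos_of_nonpos_of_nonneg (neg_nonpos.2 (dsm_nonneg x)) (by linarith [u_pos x]))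
    (bb_pos x).le

/-- The squeezed radius increases strictly. -/
theorem bb_rad_pos (x : ℝ) : 0 < bb x + 2 * x * dbb x := by
  have key : x ^ 2 * ((x - 1 / 9)⁻¹ ^ 2 * expNegInvGlue (x - 1 / 9)) < 1 := by
    rcases le_or_gt x (1 / 9) with h | h
    · rw [expNegInvGlue.zero_of_nonpos (sub_nonpos.2 h)]; simp
    · have hy : 0 < x - 1 / 9 := sub_pos.2 h
      set v := (x - 1 / 9)⁻¹ with hv
      have hv0 : 0 < v := inv_pos.2 hy
      have hxv : x * v = 1 + v / 9 := by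
        have h1 : (x - 1 / 9) * v = 1 := mul_inv_cancel₀ hy.ne'
        linarith
      have he : expNegInvGlue (x - 1 / 9) = (Real.exp v)⁻¹ := by
        rw [expNegInvGlue, if_neg (not_le.2 hy), Real.exp_neg]
      rw [he, ← mul_assoc, ← mul_pow, hxv, mul_inv_lt_iff₀ (Real.exp_pos v), one_mul]
      have := Real.quadratic_le_exp_of_nonneg hv0.le
      nlinarith
  have hu := u_pos x
  have hlt : x * dsm x < 1 + sm x := by
    have e : x * dsm x = sm x + x ^ 2 * ((x - 1 / 9)⁻¹ ^ 2 * expNegInvGlue (x - 1 / 9)) := by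
      simp only [dsm, sm]; ring
    linarith
  have e : bb x + 2 * x * dbb x = bb x / (1 + sm x) * (1 + sm x - x * dsm x) := by
    rw [dbb]; field_simp; ring
  rw [e]
  exact mul_pos (div_pos (bb_pos x) hu) (by linarith)

theorem bb_anti {x : ℝ} (h : 1 / 4 ≤ x) : bb x ≤ bb (1 / 4) := by
  refine inv_anti₀ (Real.sqrt_pos.2 (u_pos _)) (Real.sqrt_le_sqrt (add_le_add le_rfl ?_))
  exact mul_le_mul h (expNegInvGlue.monotone (by linarith)) (expNegInvGlue.nonneg _) (by linarith)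

theorem bb_quarter_lt : bb (1 / 4) < 1 := by
  refine inv_lt_one_of_one_lt₀ ?_
  rw [Real.lt_sqrt zero_le_one, one_pow, lt_add_iff_pos_right]
  exact mul_pos (by norm_num) (expNegInvGlue.pos_of_pos (by norm_num))

theorem bb_sq_le {x : ℝ} (hx : 0 ≤ x) : x * bb x ^ 2 ≤ 3 := by
  rw [bb_sq, ← div_eq_mul_inv, div_le_iff₀ (u_pos x)]
  rcases le_or_gt x 2 with h | h
  · nlinarith [sm_nonneg x]
  · have h1 : Real.exp (-1) ≤ expNegInvGlue (x - 1 / 9) := by
      refine le_trans (le_of_eq ?_) (expNegInvGlue.monotone (show (1 : ℝ) ≤ x - 1 / 9 by linarith))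
      simp [expNegInvGlue]
    have h2 : 1 / 3 ≤ Real.exp (-1) := by
      rw [Real.exp_neg, one_div]
      exact inv_anti₀ (Real.exp_pos 1) Real.exp_one_lt_three.le
    simp only [sm]
    nlinarith

theorem bb_sq_ge {x : ℝ} (hx : 1 / 9 ≤ x) (hx4 : x ≤ 1 / 4) : 1 / 9 ≤ x * bb x ^ 2 := by
  rw [bb_sq, ← div_eq_mul_inv, le_div_iff₀ (u_pos x)]
  have h : expNegInvGlue (x - 1 / 9) ≤ x - 1 / 9 := by
    rcases eq_or_lt_of_le hx with rfl | h'
    · simp
    · have hy : 0 < x - 1 / 9 := sub_pos.2 h'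
      rw [expNegInvGlue, if_neg (not_le.2 hy), Real.exp_neg, inv_le_comm₀ (Real.exp_pos _) hy]
      linarith [Real.add_one_le_exp (x - 1 / 9)⁻¹]
  simp only [sm]
  nlinarith [mul_le_mul_of_nonneg_left h (show (0 : ℝ) ≤ x by linarith)]

/-! ### The smooth step -/

theorem hasDerivAt_st (x : ℝ) : HasDerivAt Real.smoothTransition (dst x) x :=
  ((Real.smoothTransition.contDiff (n := 1)).differentiable (by simp) x).hasDerivAt

theorem dst_nonneg (x : ℝ) : 0 ≤ dst x := Real.smoothTransition.monotone.deriv_nonneg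

theorem dst_left {x : ℝ} (h : x ≤ 0) : dst x = 0 :=
  IsLocalMin.deriv_eq_zero (Eventually.of_forall fun y => by
    simp [Real.smoothTransition.zero_of_nonpos h, Real.smoothTransition.nonneg])

theorem dst_right {x : ℝ} (h : 1 ≤ x) : dst x = 0 :=
  IsLocalMax.deriv_eq_zero (Eventually.of_forall fun y => by
    simp [Real.smoothTransition.one_of_one_le h, Real.smoothTransition.le_one])

theorem exists_dst_le : ∃ C, 1 ≤ C ∧ ∀ x, dst x ≤ C := by
  have hc : Continuous dst :=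
    (Real.smoothTransition.contDiff (n := 1)).continuous_deriv le_rfl
  obtain ⟨C, hC⟩ := isCompact_Icc.exists_bound_of_continuousOn (hc.continuousOn (s := Icc 0 1))
  refine ⟨max C 1, le_max_right _ _, fun x => ?_⟩
  rcases le_or_gt x 0 with h | h
  · rw [dst_left h]; exact le_trans zero_le_one (le_max_right _ _)
  rcases le_or_gt 1 x with h' | h'
  · rw [dst_right h']; exact le_trans zero_le_one (le_max_right _ _)
  exact ((le_abs_self _).trans (hC x ⟨h.le, h'.le⟩)).trans (le_max_left _ _)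

/-! ### The profile -/

/-- The outer cut-off. -/
def cut (y : ℝ) : ℝ := Real.smoothTransition (2 - 2 * y)

/-- The onset of the linear part. -/
def ramp (x : ℝ) : ℝ := Real.smoothTransition (x - 1)

/-- The multiplier of one coordinate as a function of the squared radius. -/
def prof (q r ρ σ x : ℝ) : ℝ :=
  bb (x / (r * ρ) ^ 2) * cut (x / σ ^ 2) / r + q * ramp (x / (r * ρ) ^ 2)

/-- Its derivative. -/
def dprof (q r ρ σ x : ℝ) : ℝ :=
  (dbb (x / (r * ρ) ^ 2) / (r * ρ) ^ 2 * cut (x / σ ^ 2) -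
      bb (x / (r * ρ) ^ 2) * (2 * dst (2 - 2 * (x / σ ^ 2)) / σ ^ 2)) / r +
    q * (dst (x / (r * ρ) ^ 2 - 1) / (r * ρ) ^ 2)

theorem contDiff_prof (q r ρ σ : ℝ) : ContDiff ℝ ∞ (prof q r ρ σ) := by
  refine ContDiff.add (ContDiff.div_const (ContDiff.mul ?_ ?_) r) (contDiff_const.mul ?_)
  · exact contDiff_bb.comp (contDiff_id.div_const _)
  · exact Real.smoothTransition.contDiff.comp
      (contDiff_const.sub (contDiff_const.mul (contDiff_id.div_const _)))
  · exact Real.smoothTransition.contDiff.comp ((contDiff_id.div_const _).sub contDiff_const)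

theorem hasDerivAt_prof (q r ρ σ x : ℝ) :
    HasDerivAt (prof q r ρ σ) (dprof q r ρ σ x) x := by
  have hx : HasDerivAt (fun t : ℝ => t / (r * ρ) ^ 2) (1 / (r * ρ) ^ 2) x :=
    (hasDerivAt_id x).div_const _
  have hy : HasDerivAt (fun t : ℝ => 2 - 2 * (t / σ ^ 2)) (-(2 * (1 / σ ^ 2))) x :=
    (((hasDerivAt_id x).div_const (σ ^ 2)).const_mul 2).const_sub 2
  have h1 := (hasDerivAt_bb _).comp x hx
  have h2 := (hasDerivAt_st _).comp x hy
  have h3 := (hasDerivAt_st _).comp x (hx.sub_const 1)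
  refine (((h1.mul h2).div_const r).add (h3.const_mul q)).congr_deriv ?_
  simp only [dprof, cut, Function.comp_apply]
  ring

variable {C q r ρ σ x : ℝ}

theorem dst_outer_zero {y : ℝ} (h : y ≤ 1 / 2 ∨ 1 ≤ y) : dst (2 - 2 * y) = 0 := by
  rcases h with h | h
  · exact dst_right (by linarith)
  · exact dst_left (by linarith)

theorem cut_one {y : ℝ} (h : y ≤ 1 / 2) : cut y = 1 :=
  Real.smoothTransition.one_of_one_le (by linarith)

theorem cut_zero {y : ℝ} (h : 1 ≤ y) : cut y = 0 :=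
  Real.smoothTransition.zero_of_nonpos (by linarith)

theorem ramp_zero {y : ℝ} (h : y ≤ 1) : ramp y = 0 :=
  Real.smoothTransition.zero_of_nonpos (by linarith)

theorem ramp_one {y : ℝ} (h : 2 ≤ y) : ramp y = 1 :=
  Real.smoothTransition.one_of_one_le (by linarith)

/-- The squared radius is large where the outer cut-off acts. -/
theorem two_le_of_half (hr : 0 < r) (hρ : 0 < ρ) (hσ : 0 < σ) (h2 : 2 * (r * ρ) ≤ σ)
    (hy : 1 / 2 ≤ x / σ ^ 2) : 2 ≤ x / (r * ρ) ^ 2 := by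
  have h4 : (2 * (r * ρ)) ^ 2 ≤ σ ^ 2 := pow_le_pow_left₀ (by positivity) h2 2
  rw [le_div_iff₀ (by positivity)] at hy ⊢
  linarith

/-- The loss of the radial derivative at the outer cut-off. -/
theorem outer_le (hC : ∀ y, dst y ≤ C) (hr : 0 < r) (hρ : 0 < ρ) (hσ : 0 < σ)
    (hx : 0 ≤ x) :
    4 * (x / σ ^ 2) * bb (x / (r * ρ) ^ 2) * dst (2 - 2 * (x / σ ^ 2)) ≤ 12 * C * ρ * r / σ := by
  have hC0 : 0 ≤ C := (dst_nonneg 0).trans (hC 0)
  rcases le_or_gt (x / σ ^ 2) (1 / 2) with hy | hy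
  · rw [dst_outer_zero (Or.inl hy), mul_zero]; positivity
  rcases le_or_gt 1 (x / σ ^ 2) with hy' | hy'
  · rw [dst_outer_zero (Or.inr hy'), mul_zero]; positivity
  have hb : bb (x / (r * ρ) ^ 2) ≤ 3 * (r * ρ) / σ := by
    refine le_of_pow_le_pow_left₀ two_ne_zero (by positivity) ?_
    have h := bb_sq_le (show 0 ≤ x / (r * ρ) ^ 2 by positivity)
    rw [div_mul_eq_mul_div, div_le_iff₀ (by positivity)] at h
    rw [lt_div_iff₀ (by positivity)] at hy
    rw [div_pow, le_div_iff₀ (by positivity)]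
    nlinarith [mul_le_mul_of_nonneg_left hy.le (sq_nonneg (bb (x / (r * ρ) ^ 2))),
      sq_nonneg (r * ρ)]
  calc 4 * (x / σ ^ 2) * bb (x / (r * ρ) ^ 2) * dst (2 - 2 * (x / σ ^ 2))
      ≤ 4 * 1 * (3 * (r * ρ) / σ) * C := by
        refine mul_le_mul ?_ (hC _) (dst_nonneg _) (by positivity)
        exact mul_le_mul (mul_le_mul_of_nonneg_left hy'.le (by norm_num)) hb (bb_pos _).le
          (by norm_num)
    _ = 12 * C * ρ * r / σ := by ring

/-- Both eigenvalues of the derivative are positive. -/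
theorem prof_pos (hC : ∀ y, dst y ≤ C) (hq : 0 < q) (hr : 0 < r) (hρ : 0 < ρ) (hσ : 0 < σ)
    (hx : 0 ≤ x) (h2 : 2 * (r * ρ) ≤ σ) (hq2 : 12 * C * ρ < q * σ) :
    0 < prof q r ρ σ x ∧ 0 < prof q r ρ σ x + 2 * x * dprof q r ρ σ x := by
  have hc0 : 0 ≤ cut (x / σ ^ 2) := Real.smoothTransition.nonneg _
  have hr0 : 0 ≤ ramp (x / (r * ρ) ^ 2) := Real.smoothTransition.nonneg _
  have hb := bb_pos (x / (r * ρ) ^ 2)
  have hrad := bb_rad_pos (x / (r * ρ) ^ 2)
  have hd := dst_nonneg (x / (r * ρ) ^ 2 - 1)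
  have hX : 0 ≤ x / (r * ρ) ^ 2 := by positivity
  have e : prof q r ρ σ x + 2 * x * dprof q r ρ σ x =
      cut (x / σ ^ 2) * (bb (x / (r * ρ) ^ 2) +
          2 * (x / (r * ρ) ^ 2) * dbb (x / (r * ρ) ^ 2)) / r -
        4 * (x / σ ^ 2) * bb (x / (r * ρ) ^ 2) * dst (2 - 2 * (x / σ ^ 2)) / r +
      q * (ramp (x / (r * ρ) ^ 2) + 2 * (x / (r * ρ) ^ 2) * dst (x / (r * ρ) ^ 2 - 1)) := by
    simp only [prof, dprof]; ring
  rw [e]
  rcases le_or_gt (x / σ ^ 2) (1 / 2) with hy | hy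
  · simp only [prof, cut_one hy, dst_outer_zero (Or.inl hy), mul_zero, zero_div, sub_zero,
      mul_one, one_mul]
    exact ⟨by positivity, by positivity⟩
  · have h1 : ramp (x / (r * ρ) ^ 2) = 1 := ramp_one (two_le_of_half hr hρ hσ h2 hy.le)
    simp only [prof, h1, mul_one]
    refine ⟨by positivity, ?_⟩
    have ho := outer_le hC hr hρ hσ hx
    have ho' : 4 * (x / σ ^ 2) * bb (x / (r * ρ) ^ 2) * dst (2 - 2 * (x / σ ^ 2)) / r ≤
        12 * C * ρ / σ := by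
      rw [div_le_iff₀ hr]
      exact ho.trans_eq (by ring)
    have hlt : 12 * C * ρ / σ < q := by rwa [div_lt_iff₀ hσ]
    have hA : 0 ≤ cut (x / σ ^ 2) * (bb (x / (r * ρ) ^ 2) +
        2 * (x / (r * ρ) ^ 2) * dbb (x / (r * ρ) ^ 2)) / r := by positivity
    have hB : 0 ≤ q * (2 * (x / (r * ρ) ^ 2) * dst (x / (r * ρ) ^ 2 - 1)) := by positivity
    linarith

/-! ### The map -/

/-- The squared radius. -/
def nsq (z : R2) : ℝ := z 0 ^ 2 + z 1 ^ 2

theorem norm_sq_eq (z : R2) : ‖z‖ ^ 2 = nsq z := by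
  simp [EuclideanSpace.norm_sq_eq, Fin.sum_univ_two, nsq, sq_abs]

theorem nsq_nonneg (z : R2) : 0 ≤ nsq z := by rw [← norm_sq_eq]; positivity

/-- The radial map with axis speeds `q` at infinity. -/
def radial (q : Fin 2 → ℝ) (r ρ σ : ℝ) (z : R2) : R2 :=
  (z 0 * prof (q 0) r ρ σ (nsq z)) • pt 1 0 + (z 1 * prof (q 1) r ρ σ (nsq z)) • pt 0 1

theorem contDiff_radial (q : Fin 2 → ℝ) (r ρ σ : ℝ) : ContDiff ℝ ∞ (radial q r ρ σ) := by
  have h : ∀ i : Fin 2, ContDiff ℝ ∞ fun z : R2 => z i :=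
    fun i => (EuclideanSpace.proj (𝕜 := ℝ) i).contDiff
  have hn : ContDiff ℝ ∞ nsq := ((h 0).pow 2).add ((h 1).pow 2)
  exact (((h 0).mul ((contDiff_prof _ _ _ _).comp hn)).smul contDiff_const).add
    (((h 1).mul ((contDiff_prof _ _ _ _).comp hn)).smul contDiff_const)

theorem fderiv_radial (q : Fin 2 → ℝ) (r ρ σ : ℝ) (z a : R2) (i : Fin 2) :
    fderiv ℝ (radial q r ρ σ) z a i = a i * prof (q i) r ρ σ (nsq z) +
      z i * dprof (q i) r ρ σ (nsq z) * (2 * (z 0 * a 0 + z 1 * a 1)) := by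
  have h : ∀ i : Fin 2, HasFDerivAt (fun z : R2 => z i) (EuclideanSpace.proj (𝕜 := ℝ) i) z :=
    fun i => (EuclideanSpace.proj (𝕜 := ℝ) i).hasFDerivAt
  have hn := ((h 0).pow 2).add ((h 1).pow 2)
  have hp : ∀ j : Fin 2, HasFDerivAt (fun z : R2 => prof (q j) r ρ σ (nsq z)) _ z :=
    fun j => (hasDerivAt_prof (q j) r ρ σ (nsq z)).comp_hasFDerivAt z hn
  have ht : HasFDerivAt (radial q r ρ σ) _ z :=
    (((h 0).mul (hp 0)).smul_const (pt 1 0)).add (((h 1).mul (hp 1)).smul_const (pt 0 1))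
  rw [ht.fderiv]
  fin_cases i <;> simp [pt] <;> ring

/-- **The derivative is invertible.** -/
theorem det_radial_pos {q : Fin 2 → ℝ} (hC : ∀ y, dst y ≤ C) (hq : ∀ i, 0 < q i) (hr : 0 < r)
    (hρ : 0 < ρ) (hσ : 0 < σ) (h2 : 2 * (r * ρ) ≤ σ) (hq2 : ∀ i, 12 * C * ρ < q i * σ)
    (z : R2) : 0 < det2 (fderiv ℝ (radial q r ρ σ) z) := by
  have hN := nsq_nonneg z
  obtain ⟨a0, b0⟩ := prof_pos hC (hq 0) hr hρ hσ hN h2 (hq2 0)
  obtain ⟨a1, b1⟩ := prof_pos hC (hq 1) hr hρ hσ hN h2 (hq2 1)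
  set A := prof (q 0) r ρ σ (nsq z)
  set A' := dprof (q 0) r ρ σ (nsq z)
  set B := prof (q 1) r ρ σ (nsq z)
  set B' := dprof (q 1) r ρ σ (nsq z)
  have e : nsq z * det2 (fderiv ℝ (radial q r ρ σ) z) =
      B * z 0 ^ 2 * (A + 2 * nsq z * A') + A * z 1 ^ 2 * (B + 2 * nsq z * B') := by
    simp [det2, fderiv_radial, pt, A, A', B, B', nsq]
    ring
  rcases hN.eq_or_lt with h0 | hpos
  · have hz : z 0 = 0 ∧ z 1 = 0 := by
      have := h0.symm
      simp only [nsq] at this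
      constructor <;> nlinarith [sq_nonneg (z 0), sq_nonneg (z 1)]
    simp [det2, fderiv_radial, pt, hz, A, B] at *
    exact mul_pos a0 a1
  · refine pos_of_mul_pos_right ?_ hN
    rw [e]
    have hz : 0 < z 0 ^ 2 ∨ 0 < z 1 ^ 2 := by
      by_contra h
      simp only [not_or, not_lt] at h
      simp only [nsq] at hpos
      linarith [h.1, h.2]
    rcases hz with h | h <;> positivity

/-! ### Near the centre -/

theorem radial_core {q : Fin 2 → ℝ} (hr : 0 < r) (hρ : 0 < ρ) (hσ : 0 < σ)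
    (h2 : 2 * (r * ρ) ≤ σ) {z : R2} (hz : nsq z ≤ (r * ρ) ^ 2 / 4) :
    radial q r ρ σ z = (bb (nsq z / (r * ρ) ^ 2) / r) • z ∧
      (∀ i, prof (q i) r ρ σ (nsq z) = bb (nsq z / (r * ρ) ^ 2) / r) ∧
      ∀ i, dprof (q i) r ρ σ (nsq z) = dbb (nsq z / (r * ρ) ^ 2) / (r * ρ) ^ 2 / r := by
  have hX : nsq z / (r * ρ) ^ 2 ≤ 1 / 4 := by rw [div_le_iff₀ (by positivity)]; linarith
  have hY : nsq z / σ ^ 2 ≤ 1 / 2 := by
    rw [div_le_iff₀ (by positivity)]
    have : (2 * (r * ρ)) ^ 2 ≤ σ ^ 2 := pow_le_pow_left₀ (by positivity) h2 2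
    nlinarith
  have h1 : ∀ i, prof (q i) r ρ σ (nsq z) = bb (nsq z / (r * ρ) ^ 2) / r := fun i => by
    simp [prof, cut_one hY, ramp_zero (hX.trans (by norm_num))]
  refine ⟨?_, h1, fun i => ?_⟩
  · simp only [radial, h1]
    rw [mul_comm (z 0), mul_comm (z 1), ← smul_smul, ← smul_smul, ← smul_add, ← Legal.coord_pt z]
  · simp [dprof, cut_one hY, dst_outer_zero (Or.inl hY),
      dst_left (show nsq z / (r * ρ) ^ 2 - 1 ≤ 0 by linarith)]

/-- The map is `z / r` on the smallest disc. -/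
theorem radial_id {q : Fin 2 → ℝ} (hr : 0 < r) (hρ : 0 < ρ) (hσ : 0 < σ)
    (h2 : 2 * (r * ρ) ≤ σ) {z : R2} (hz : nsq z ≤ (r * ρ) ^ 2 / 9) :
    radial q r ρ σ z = r⁻¹ • z ∧ ∀ a, fderiv ℝ (radial q r ρ σ) z a = r⁻¹ • a := by
  obtain ⟨e0, e1, e2⟩ := radial_core (q := q) hr hρ hσ h2 (hz.trans (by nlinarith [sq_nonneg (r * ρ)]))
  have hX : nsq z / (r * ρ) ^ 2 ≤ 1 / 9 := by rw [div_le_iff₀ (by positivity)]; linarith
  obtain ⟨b1, b2⟩ := bb_one hX
  refine ⟨by rw [e0, b1, one_div], fun a => ?_⟩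
  ext i
  rw [fderiv_radial, e1, e2, b1, b2]
  simp
  ring

/-- The map is linear outside radius `σ`. -/
theorem radial_far {q : Fin 2 → ℝ} (hr : 0 < r) (hρ : 0 < ρ) (hσ : 0 < σ)
    (h2 : 2 * (r * ρ) ≤ σ) {z : R2} (hz : σ ≤ ‖z‖) :
    radial q r ρ σ z = pt (q 0 * z 0) (q 1 * z 1) := by
  have hY : 1 ≤ nsq z / σ ^ 2 := by
    rw [le_div_iff₀ (by positivity), one_mul, ← norm_sq_eq]
    exact pow_le_pow_left₀ hσ.le hz 2
  have h1 : ramp (nsq z / (r * ρ) ^ 2) = 1 :=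
    ramp_one (two_le_of_half hr hρ hσ h2 (by linarith))
  ext i
  fin_cases i <;> simp [radial, prof, cut_zero hY, h1, pt, mul_comm]

/-- A rank one correction of a multiple of the identity. -/
theorem norm_rank_one {m n M : ℝ} {z a : R2} (h1 : |m| ≤ M) (h2 : |m + n * nsq z| ≤ M) :
    ‖m • a + (n * (z 0 * a 0 + z 1 * a 1)) • z‖ ≤ M * ‖a‖ := by
  have hM : 0 ≤ M := (abs_nonneg _).trans h1
  refine (abs_le_of_sq_le_sq' ?_ (mul_nonneg hM (norm_nonneg _))).2
  have hcs : (z 0 * a 0 + z 1 * a 1) ^ 2 ≤ nsq z * nsq a := by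
    simp only [nsq]; nlinarith [sq_nonneg (z 0 * a 1 - z 1 * a 0)]
  have e : ‖m • a + (n * (z 0 * a 0 + z 1 * a 1)) • z‖ ^ 2 =
      m ^ 2 * nsq a + (2 * m * n + n ^ 2 * nsq z) * (z 0 * a 0 + z 1 * a 1) ^ 2 := by
    rw [norm_sq_eq]; simp [nsq]; ring
  rw [e, mul_pow, norm_sq_eq]
  have hm : m ^ 2 ≤ M ^ 2 := sq_le_sq' (abs_le.1 h1).1 (abs_le.1 h1).2
  have hn : (m + n * nsq z) ^ 2 ≤ M ^ 2 := sq_le_sq' (abs_le.1 h2).1 (abs_le.1 h2).2
  have ha := nsq_nonneg a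
  rcases le_or_gt (2 * m * n + n ^ 2 * nsq z) 0 with h | h
  · nlinarith [mul_nonpos_of_nonpos_of_nonneg h (sq_nonneg (z 0 * a 0 + z 1 * a 1))]
  · nlinarith [mul_le_mul_of_nonneg_left hcs h.le]

/-- In the core the squeeze does not expand. -/
theorem radial_core_le {q : Fin 2 → ℝ} (hr : 0 < r) (hρ : 0 < ρ) (hσ : 0 < σ)
    (h2 : 2 * (r * ρ) ≤ σ) {z : R2} (hz : nsq z ≤ (r * ρ) ^ 2 / 4) (a : R2) :
    ‖r • fderiv ℝ (radial q r ρ σ) z a‖ ≤ ‖a‖ := by
  obtain ⟨-, e1, e2⟩ := radial_core (q := q) hr hρ hσ h2 hz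
  have hN := nsq_nonneg z
  set X := nsq z / (r * ρ) ^ 2 with hX
  have e : r • fderiv ℝ (radial q r ρ σ) z a =
      bb X • a + (2 * dbb X / (r * ρ) ^ 2 * (z 0 * a 0 + z 1 * a 1)) • z := by
    ext i
    simp only [PiLp.smul_apply, PiLp.add_apply, smul_eq_mul, fderiv_radial, e1, e2]
    field_simp
  rw [e]
  refine (norm_rank_one (M := 1) ?_ ?_).trans (le_of_eq (one_mul _))
  · rw [abs_of_pos (bb_pos X)]; exact bb_le_one X
  · have h' : 2 * dbb X / (r * ρ) ^ 2 * nsq z = 2 * X * dbb X := by rw [hX]; ring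
    rw [h', abs_le]
    have hX0 : 0 ≤ X := by positivity
    constructor
    · linarith [bb_rad_pos X]
    · nlinarith [bb_le_one X, dbb_nonpos X]

/-- Away from the core the map contracts. -/
theorem radial_contr {q : Fin 2 → ℝ} {Q : ℝ} (hC : ∀ y, dst y ≤ C) (hC1 : 1 ≤ C)
    (hq : ∀ i, |q i| ≤ Q) (hr : 0 < r) (hρ : 0 < ρ) (hσ : 0 < σ) {z : R2}
    (hz : (r * ρ) ^ 2 / 4 ≤ nsq z) (a : R2) :
    ‖r • fderiv ℝ (radial q r ρ σ) z a‖ ≤
      (bb (1 / 4) + r * (12 * C * ρ / σ + Q * (1 + 4 * C))) * ‖a‖ := by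
  have hN := nsq_nonneg z
  have hQ : 0 ≤ Q := (abs_nonneg _).trans (hq 0)
  set X := nsq z / (r * ρ) ^ 2 with hX
  set Y := nsq z / σ ^ 2 with hY
  set s := z 0 * a 0 + z 1 * a 1 with hs
  have hX4 : 1 / 4 ≤ X := by rw [hX, le_div_iff₀ (by positivity)]; linarith
  set qa : R2 := pt (q 0 * a 0) (q 1 * a 1) with hqa
  set qz : R2 := pt (q 0 * z 0) (q 1 * z 1) with hqz
  set n := 2 * (dbb X / (r * ρ) ^ 2 * cut Y - bb X * (2 * dst (2 - 2 * Y) / σ ^ 2)) with hn
  have e : r • fderiv ℝ (radial q r ρ σ) z a =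
      (bb X * cut Y) • a + (n * s) • z +
        r • (ramp X • qa + (2 * (dst (X - 1) / (r * ρ) ^ 2) * s) • qz) := by
    ext i
    simp only [PiLp.smul_apply, PiLp.add_apply, smul_eq_mul, fderiv_radial, prof, dprof, ← hX,
      ← hY, ← hs]
    fin_cases i <;> simp [hqa, hqz, pt, hn] <;> field_simp <;> ring
  have hb4 : bb X * cut Y ≤ bb (1 / 4) :=
    (mul_le_of_le_one_right (bb_pos X).le (Real.smoothTransition.le_one _)).trans (bb_anti hX4)
  have hc0 : 0 ≤ cut Y := Real.smoothTransition.nonneg _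
  have hE : 0 ≤ 12 * C * ρ * r / σ := by positivity
  have hfirst : ‖(bb X * cut Y) • a + (n * s) • z‖ ≤
      (bb (1 / 4) + 12 * C * ρ * r / σ) * ‖a‖ := by
    refine norm_rank_one ?_ ?_
    · rw [abs_of_nonneg (mul_nonneg (bb_pos X).le hc0)]; linarith
    · have h' : bb X * cut Y + n * nsq z = cut Y * (bb X + 2 * X * dbb X) -
          4 * Y * bb X * dst (2 - 2 * Y) := by rw [hn, hX, hY]; ring
      have ho : 4 * Y * bb X * dst (2 - 2 * Y) ≤ 12 * C * ρ * r / σ :=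
        outer_le hC hr hρ hσ hN
      have ho0 : 0 ≤ 4 * Y * bb X * dst (2 - 2 * Y) :=
        mul_nonneg (mul_nonneg (by rw [hY]; positivity) (bb_pos X).le) (dst_nonneg _)
      have hrad : 0 ≤ cut Y * (bb X + 2 * X * dbb X) := mul_nonneg hc0 (bb_rad_pos X).le
      have hup : cut Y * (bb X + 2 * X * dbb X) ≤ bb X * cut Y := by
        nlinarith [mul_nonpos_of_nonneg_of_nonpos (mul_nonneg hc0 (show 0 ≤ X by linarith))
          (dbb_nonpos X)]
      rw [h', abs_le]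
      constructor <;> linarith
  have hco : ∀ w : R2, ‖pt (q 0 * w 0) (q 1 * w 1)‖ ≤ Q * ‖w‖ := by
    intro w
    refine (abs_le_of_sq_le_sq' ?_ (mul_nonneg hQ (norm_nonneg _))).2
    rw [norm_sq_eq, mul_pow, norm_sq_eq]
    simp only [nsq, pt]
    have h0 : q 0 ^ 2 ≤ Q ^ 2 := sq_le_sq' (abs_le.1 (hq 0)).1 (abs_le.1 (hq 0)).2
    have h1 : q 1 ^ 2 ≤ Q ^ 2 := sq_le_sq' (abs_le.1 (hq 1)).1 (abs_le.1 (hq 1)).2
    simp
    nlinarith [sq_nonneg (w 0), sq_nonneg (w 1)]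
  have hd : X * dst (X - 1) ≤ 2 * C := by
    rcases le_or_gt 2 X with h | h
    · rw [dst_right (by linarith), mul_zero]; linarith
    · exact mul_le_mul h.le (hC _) (dst_nonneg _) zero_le_two
  have hsecond : ‖ramp X • qa + (2 * (dst (X - 1) / (r * ρ) ^ 2) * s) • qz‖ ≤
      Q * (1 + 4 * C) * ‖a‖ := by
    refine (norm_add_le _ _).trans ?_
    rw [norm_smul, norm_smul, Real.norm_eq_abs, Real.norm_eq_abs]
    have hss : |s| ≤ ‖z‖ * ‖a‖ := by
      refine abs_le_of_sq_le_sq ?_ (by positivity)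
      rw [mul_pow, norm_sq_eq, norm_sq_eq]
      simp only [hs, nsq]; nlinarith [sq_nonneg (z 0 * a 1 - z 1 * a 0)]
    have t1 : |ramp X| * ‖qa‖ ≤ 1 * (Q * ‖a‖) := by
      refine mul_le_mul ?_ (hco a) (norm_nonneg _) zero_le_one
      rw [abs_of_nonneg (show 0 ≤ ramp X from Real.smoothTransition.nonneg _)]
      exact Real.smoothTransition.le_one _
    have t2 : |2 * (dst (X - 1) / (r * ρ) ^ 2) * s| * ‖qz‖ ≤ 4 * C * (Q * ‖a‖) := by
      rw [abs_mul, abs_of_nonneg (by have := dst_nonneg (X - 1); positivity)]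
      calc 2 * (dst (X - 1) / (r * ρ) ^ 2) * |s| * ‖qz‖
          ≤ 2 * (dst (X - 1) / (r * ρ) ^ 2) * (‖z‖ * ‖a‖) * (Q * ‖z‖) := by
            have := dst_nonneg (X - 1)
            exact mul_le_mul (mul_le_mul_of_nonneg_left hss (by positivity)) (hco z)
              (norm_nonneg _) (by positivity)
        _ = 2 * (‖z‖ ^ 2 / (r * ρ) ^ 2 * dst (X - 1)) * (Q * ‖a‖) := by ring
        _ ≤ 4 * C * (Q * ‖a‖) := by
            rw [norm_sq_eq, ← hX]
            exact mul_le_mul_of_nonneg_right (by linarith) (by positivity)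
    exact (add_le_add t1 t2).trans (le_of_eq (by ring))
  rw [e]
  calc _ ≤ (bb (1 / 4) + 12 * C * ρ * r / σ) * ‖a‖ + r * (Q * (1 + 4 * C) * ‖a‖) := by
        refine (norm_add_le _ _).trans (add_le_add hfirst ?_)
        rw [norm_smul, Real.norm_eq_abs, abs_of_pos hr]
        exact mul_le_mul_of_nonneg_left hsecond hr.le
    _ = _ := by ring

/-- The image stays within `2ρ` of the linear part. -/
theorem radial_norm {q : Fin 2 → ℝ} {Q : ℝ} (hq : ∀ i, 0 ≤ q i ∧ q i ≤ Q) (hr : 0 < r)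
    (hρ : 0 < ρ) (z : R2) : ‖radial q r ρ σ z‖ ≤ 2 * ρ + Q * ‖z‖ := by
  have hN := nsq_nonneg z
  set X := nsq z / (r * ρ) ^ 2 with hX
  set Y := nsq z / σ ^ 2
  have hQ : 0 ≤ Q := (hq 0).1.trans (hq 0).2
  set qz : R2 := pt (q 0 * z 0) (q 1 * z 1) with hqz
  have e : radial q r ρ σ z = (bb X * cut Y / r) • z + ramp X • qz := by
    ext i
    fin_cases i <;> simp [radial, prof, hqz, pt, X, Y] <;> ring
  rw [e]
  refine (norm_add_le _ _).trans (add_le_add ?_ ?_)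
  · rw [norm_smul, Real.norm_eq_abs, abs_of_nonneg
      (show 0 ≤ bb X * cut Y / r from
      div_nonneg (mul_nonneg (bb_pos X).le (Real.smoothTransition.nonneg _)) hr.le)]
    refine (mul_le_mul_of_nonneg_right (div_le_div_of_nonneg_right
      (mul_le_of_le_one_right (bb_pos X).le (Real.smoothTransition.le_one _)) hr.le)
      (norm_nonneg _)).trans ?_
    refine (abs_le_of_sq_le_sq' ?_ (by linarith)).2
    rw [mul_pow, div_pow, norm_sq_eq, div_mul_eq_mul_div, div_le_iff₀ (by positivity)]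
    have h := bb_sq_le (show 0 ≤ X by positivity)
    rw [hX, div_mul_eq_mul_div, div_le_iff₀ (by positivity)] at h
    nlinarith [mul_nonneg (sq_nonneg r) (sq_nonneg ρ)]
  · rw [norm_smul, Real.norm_eq_abs,
      abs_of_nonneg (show 0 ≤ ramp X from Real.smoothTransition.nonneg _)]
    refine (mul_le_of_le_one_left (norm_nonneg _) (Real.smoothTransition.le_one _)).trans ?_
    refine (abs_le_of_sq_le_sq' ?_ (mul_nonneg hQ (norm_nonneg _))).2
    rw [norm_sq_eq, mul_pow, norm_sq_eq]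
    simp [nsq, hqz, pt]
    nlinarith [mul_le_mul_of_nonneg_right (pow_le_pow_left₀ (hq 0).1 (hq 0).2 2) (sq_nonneg (z 0)),
      mul_le_mul_of_nonneg_right (pow_le_pow_left₀ (hq 1).1 (hq 1).2 2) (sq_nonneg (z 1))]

end Vale.Agent.P205.Base
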